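import Mathlib

set_option autoImplicit false

namespace Crest.Agent.R327

theorem sum_fun_succ {V M : Type*} [Fintype V] [AddCommMonoid M] (m : ℕ)
    (f : (Fin (m + 1) → V) → M) :
    ∑ v, f v = ∑ a : V, ∑ w : Fin m → V, f (Fin.cons a w) := by
  rw [← Fintype.sum_prod_type']
  exact (Fintype.sum_equiv (Fin.consEquiv (fun _ => V)) _ _ (fun _ => rfl)).symm

/-- Path expansion of an entry of an ordered product of matrices. -/
theorem ofFn_prod_apply {V R : Type*} [Fintype V] [DecidableEq V] [CommSemiring R] (m : ℕ)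
    (A : Fin m → Matrix V V R) (i j : V) :
    (List.ofFn A).prod i j = ∑ v : Fin (m + 1) → V,
      if v 0 = i ∧ v (Fin.last m) = j then ∏ k, A k (v k.castSucc) (v k.succ) else 0 := by
  induction m generalizing i with
  | zero =>
    rw [sum_fun_succ]
    simp [Matrix.one_apply, ite_and]
  | succ m ih =>
    rw [List.ofFn_succ, List.prod_cons, Matrix.mul_apply, sum_fun_succ]
    simp only [ih, Finset.mul_sum]
    have h1 : ∀ (a : V) (w : Fin (m + 1) → V),
        (if (Fin.cons a w : Fin (m + 2) → V) 0 = i ∧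
            (Fin.cons a w : Fin (m + 2) → V) (Fin.last (m + 1)) = j then
          ∏ k : Fin (m + 1), A k ((Fin.cons a w : Fin (m + 2) → V) k.castSucc)
            ((Fin.cons a w : Fin (m + 2) → V) k.succ) else 0) =
        if a = i then (if w (Fin.last m) = j then
          A 0 a (w 0) * ∏ k : Fin m, A k.succ (w k.castSucc) (w k.succ) else 0) else 0 := by
      intro a w
      rw [Fin.prod_univ_succ, ← Fin.succ_last]
      simp only [Fin.cons_zero, Fin.cons_succ, Fin.castSucc_zero, ite_and]
      simp only [← Fin.succ_castSucc, Fin.cons_succ]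
    simp only [h1]
    rw [Finset.sum_comm, Finset.sum_comm (s := (Finset.univ : Finset V))]
    refine Finset.sum_congr rfl fun w _ => ?_
    simp [ite_and]

theorem sum_fun_snoc {V M : Type*} [Fintype V] [AddCommMonoid M] (m : ℕ)
    (f : (Fin (m + 1) → V) → M) :
    ∑ v, f v = ∑ a : V, ∑ w : Fin m → V, f (Fin.snoc w a) := by
  rw [← Fintype.sum_prod_type']
  exact (Fintype.sum_equiv (Fin.snocEquiv (fun _ => V)) _ _ (fun _ => rfl)).symm

/-- A path with prescribed end points, from its inner vertices. -/
def ext {V : Type*} {m : ℕ} (i j : V) (w : Fin m → V) : Fin (m + 2) → V :=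
  Fin.cons i (Fin.snoc w j : Fin (m + 1) → V)

theorem ext_inner {V : Type*} {m : ℕ} (i j : V) (w : Fin m → V) (k : Fin m) :
    ext i j w k.castSucc.succ = w k := by
  simp [ext]

theorem ext_inner' {V : Type*} {m : ℕ} (i j : V) (w : Fin m → V) (k : Fin m) :
    ext i j w k.succ.castSucc = w k := by
  rw [← Fin.succ_castSucc, ext_inner]

theorem sum_ends {V M : Type*} [Fintype V] [DecidableEq V] [AddCommMonoid M] (m : ℕ) (i j : V)
    (f : (Fin (m + 2) → V) → M) :
    ∑ v : Fin (m + 2) → V, (if v 0 = i ∧ v (Fin.last (m + 1)) = j then f v else 0) =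
      ∑ w : Fin m → V, f (ext i j w) := by
  rw [sum_fun_succ]
  simp only [← Fin.succ_last, Fin.cons_zero, Fin.cons_succ, ite_and]
  rw [Finset.sum_eq_single i (by intro a _ ha; simp [ha]) (by simp), sum_fun_snoc]
  simp only [Fin.snoc_last, if_true]
  rw [Finset.sum_eq_single j (by intro a _ ha; simp [ha]) (by simp)]
  simp [ext]

/-- Path expansion over the inner vertices. -/
theorem ofFn_prod_apply' {V R : Type*} [Fintype V] [DecidableEq V] [CommSemiring R] (m : ℕ)
    (A : Fin (m + 1) → Matrix V V R) (i j : V) :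
    (List.ofFn A).prod i j = ∑ w : Fin m → V,
      ∏ k, A k (ext i j w k.castSucc) (ext i j w k.succ) := by
  rw [ofFn_prod_apply, sum_ends]

end Crest.Agent.R327
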