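import Mathlib
import Crest.Prelude.Def_SPSPS
import Crest.Agent.R327.Paths

set_option autoImplicit false

namespace Crest.Agent.R327

open MvPolynomial Crest.ArithCircuit

section reindex

variable {K ι L B P S R L' B' P' S' R' : Type*} [CommSemiring K]

/-- Transport of a circuit along bijections of the index types. -/
def reindex (C : SPSPS K ι L B P S R) (eL : L ≃ L') (eB : B ≃ B') (eP : P ≃ P') (eS : S ≃ S')
    (eR : R ≃ R') : SPSPS K ι L' B' P' S' R' where
  leaf l := C.leaf (eL.symm l)
  inB b := (C.inB (eB.symm b)).map eL.toEmbedding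
  coefB b l := C.coefB (eB.symm b) (eL.symm l)
  inP p := (C.inP (eP.symm p)).map eB
  inS s := (C.inS (eS.symm s)).map eP.toEmbedding
  coefS s p := C.coefS (eS.symm s) (eP.symm p)
  inR r := (C.inR (eR.symm r)).map eS
  inOut := C.inOut.map eR.toEmbedding
  coefOut r := C.coefOut (eR.symm r)

theorem reindex_spec (C : SPSPS K ι L B P S R) (eL : L ≃ L') (eB : B ≃ B') (eP : P ≃ P')
    (eS : S ≃ S') (eR : R ≃ R') (hC : C.IsHomogeneous) :
    (reindex C eL eB eP eS eR).IsHomogeneous ∧ (reindex C eL eB eP eS eR).output = C.output := by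
  set C' := reindex C eL eB eP eS eR with hC'
  have vL : ∀ l, C'.leafVal (eL l) = C.leafVal l := fun l => by
    simp [hC', reindex, SPSPS.leafVal]
  have vB : ∀ b, C'.valB (eB b) = C.valB b := fun b => by
    simp only [SPSPS.valB]
    simp only [← vL]
    simp [hC', reindex]
  have vP : ∀ p, C'.valP (eP p) = C.valP p := fun p => by
    simp only [SPSPS.valP]
    rw [← funext vB]
    simp [hC', reindex]
  have vS : ∀ s, C'.valS (eS s) = C.valS s := fun s => by
    simp only [SPSPS.valS]
    simp only [← vP]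
    simp [hC', reindex]
  have vR : ∀ r, C'.valR (eR r) = C.valR r := fun r => by
    simp only [SPSPS.valR]
    rw [← funext vS]
    simp [hC', reindex]
  have dL : ∀ l, C'.leafDeg (eL l) = C.leafDeg l := fun l => by
    simp [hC', reindex, SPSPS.leafDeg]
  have dB : ∀ b, C'.degB (eB b) = C.degB b := fun b => by
    simp only [SPSPS.degB]
    rw [← funext dL]
    simp [hC', reindex, Function.comp_def]
  have dP : ∀ p, C'.degP (eP p) = C.degP p := fun p => by
    simp only [SPSPS.degP]
    rw [← funext dB]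
    simp [hC', reindex]
  have dS : ∀ s, C'.degS (eS s) = C.degS s := fun s => by
    simp only [SPSPS.degS]
    rw [← funext dP]
    simp [hC', reindex, Function.comp_def]
  have dR : ∀ r, C'.degR (eR r) = C.degR r := fun r => by
    simp only [SPSPS.degR]
    rw [← funext dS]
    simp [hC', reindex]
  have dO : C'.degOut = C.degOut := by
    simp only [SPSPS.degOut]
    rw [← funext dR]
    simp [hC', reindex, Function.comp_def]
  refine ⟨⟨?_, ?_, ?_⟩, ?_⟩
  · intro b l hl
    obtain ⟨b, rfl⟩ := eB.surjective b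
    obtain ⟨l, rfl⟩ := eL.surjective l
    rw [dL, dB]
    exact hC.1 b l (by simpa [hC', reindex] using hl)
  · intro s p hp
    obtain ⟨s, rfl⟩ := eS.surjective s
    obtain ⟨p, rfl⟩ := eP.surjective p
    rw [dP, dS]
    exact hC.2.1 s p (by simpa [hC', reindex] using hp)
  · intro r hr
    obtain ⟨r, rfl⟩ := eR.surjective r
    rw [dR, dO]
    exact hC.2.2 r (by simpa [hC', reindex] using hr)
  · simp only [SPSPS.output]
    simp only [← vR]
    simp [hC', reindex]

end reindex

variable (K : Type*) [CommSemiring K]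

/-- The variable matrices, padded with identity matrices. -/
noncomputable def padA (m : ℕ) (k : ℕ) :
    Matrix (Fin (m + 1)) (Fin (m + 1)) (MvPolynomial (Fin (m + 1) × Fin (m + 1) × Fin (m + 1)) K) :=
  if k < m + 1 then varMatrix K (m + 1) (Fin.ofNat (m + 1) k) else 1

theorem prod_pad (m p : ℕ) :
    (List.ofFn (fun k : Fin (m + 1 + p) => padA K m k)).prod =
      (List.ofFn (varMatrix K (m + 1))).prod := by
  induction p with
  | zero =>
    congr 2
    funext k
    have hk : (k : ℕ) < m + 1 := k.2
    simp only [padA, if_pos hk]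
    congr 1
    ext
    simp
  | succ p ih =>
    rw [← ih]
    have := List.ofFn_succ' (fun k : Fin (m + 1 + p + 1) => padA K m k)
    change (List.ofFn (fun k : Fin (m + 1 + p + 1) => padA K m k)).prod = _
    rw [this, List.prod_concat]
    have h1 : padA K m (Fin.last (m + 1 + p) : ℕ) = 1 := by
      rw [padA, if_neg (by simp; omega)]
    rw [h1, mul_one]
    rfl

theorem imm_blocks (m r t : ℕ) (h : m + 1 ≤ r * t) :
    imm K (m + 1) = (List.ofFn (fun b : Fin r =>
      (List.ofFn (fun k : Fin t => padA K m (b * t + k))).prod)).prod 0 0 := by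
  obtain ⟨p, hp⟩ := Nat.exists_eq_add_of_le h
  have h1 : (List.ofFn (fun k : Fin (r * t) => padA K m k)).prod =
      (List.ofFn (varMatrix K (m + 1))).prod := by
    rw [← prod_pad K m p, hp]
  rw [imm, ← h1, List.ofFn_mul, List.prod_flatten, List.map_ofFn]
  rfl

/-- The block circuit for iterated matrix multiplication. -/
noncomputable def circ (m r' t : ℕ) :
    SPSPS K (Fin (m + 1) × Fin (m + 1) × Fin (m + 1)) (Fin (m + 1) × Fin (m + 1) × Fin (m + 1))
      (Fin (m + 1) × Fin (m + 1) × Fin (m + 1)) (Fin (r' + 1) × (Fin (t + 1) → Fin (m + 1)))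
      (Fin (r' + 1) × Fin (m + 1) × Fin (m + 1)) (Fin r' → Fin (m + 1)) where
  leaf l := Sum.inl l
  inB b := {b}
  coefB _ _ := 1
  inP p := (Finset.univ.filter (fun k : Fin t => p.1 * t + k < m + 1)).val.map
    (fun k : Fin t => (Fin.ofNat (m + 1) (p.1 * t + k), p.2 k.castSucc, p.2 k.succ))
  inS s := Finset.univ.filter (fun p => p.1 = s.1 ∧ p.2 0 = s.2.1 ∧ p.2 (Fin.last t) = s.2.2)
  coefS _ p := ∏ k : Fin t,
    if p.1 * t + k < m + 1 then 1 else (if p.2 k.castSucc = p.2 k.succ then 1 else 0)
  inR w := (Finset.univ : Finset (Fin (r' + 1))).val.map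
    (fun b => (b, ext 0 0 w b.castSucc, ext 0 0 w b.succ))
  inOut := Finset.univ
  coefOut _ := 1

theorem circ_valB (m r' t : ℕ) (b) : (circ K m r' t).valB b = X b := by
  simp [SPSPS.valB, circ, SPSPS.leafVal]

theorem circ_degB (m r' t : ℕ) (b) : (circ K m r' t).degB b = 1 := by
  simp [SPSPS.degB, circ, SPSPS.leafDeg]

theorem circ_valP (m r' t : ℕ) (p) : (circ K m r' t).valP p =
    ∏ k : Fin t, if p.1 * t + k < m + 1 then
      X (Fin.ofNat (m + 1) (p.1 * t + k), p.2 k.castSucc, p.2 k.succ) else 1 := by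
  rw [SPSPS.valP, funext (circ_valB K m r' t), ← Finset.prod_filter]
  simp only [circ, Multiset.map_map]
  rfl

theorem circ_degP (m r' t : ℕ) (p) : (circ K m r' t).degP p =
    (Finset.univ.filter (fun k : Fin t => p.1 * t + k < m + 1)).card := by
  rw [SPSPS.degP, funext (circ_degB K m r' t)]
  simp only [circ, Multiset.map_const', Multiset.sum_replicate, smul_eq_mul, mul_one,
    Multiset.card_map]
  rfl

theorem circ_valS (m r' t : ℕ) (s) : (circ K m r' t).valS s =
    (List.ofFn (fun k : Fin t => padA K m (s.1 * t + k))).prod s.2.1 s.2.2 := by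
  rw [ofFn_prod_apply, SPSPS.valS]
  simp only [circ_valP]
  simp only [circ]
  rw [Finset.sum_filter, Fintype.sum_prod_type, Finset.sum_eq_single s.1]
  · refine Finset.sum_congr rfl fun v _ => ?_
    simp only [true_and]
    split_ifs with h
    · rw [smul_eq_C_mul, map_prod, ← Finset.prod_mul_distrib]
      refine Finset.prod_congr rfl fun k _ => ?_
      unfold padA
      split_ifs with h1 h2
      · simp [varMatrix]
      · rw [Matrix.one_apply, if_pos h2]; simp
      · rw [Matrix.one_apply, if_neg h2]; simp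
    · rfl
  · intro b _ hb
    simp [hb]
  · simp

theorem circ_degS (m r' t : ℕ) (ht : 0 < t) (s) : (circ K m r' t).degS s =
    (Finset.univ.filter (fun k : Fin t => s.1 * t + k < m + 1)).card := by
  rw [SPSPS.degS, Finset.sup_congr rfl (g := fun _ =>
    (Finset.univ.filter (fun k : Fin t => s.1 * t + k < m + 1)).card), Finset.sup_const]
  · refine ⟨(s.1, fun k => if k = 0 then s.2.1 else s.2.2), ?_⟩
    have : Fin.last t ≠ 0 := by
      intro h
      have := congrArg Fin.val h
      simp at this; omega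
    simp [circ, this]
  · intro p hp
    rw [circ_degP]
    simp only [circ, Finset.mem_filter] at hp
    rw [hp.2.1]

theorem circ_degR (m r' t : ℕ) (ht : 0 < t) (w) : (circ K m r' t).degR w =
    ∑ b : Fin (r' + 1), (Finset.univ.filter (fun k : Fin t => b * t + k < m + 1)).card := by
  rw [SPSPS.degR, funext (circ_degS K m r' t ht)]
  simp only [circ, Multiset.map_map]
  rfl

theorem circ_hom (m r' t : ℕ) (ht : 0 < t) : (circ K m r' t).IsHomogeneous := by
  refine ⟨?_, ?_, ?_⟩
  · intro b l _
    rw [circ_degB]; rfl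
  · intro s p hp
    rw [circ_degS K m r' t ht, circ_degP]
    simp only [circ, Finset.mem_filter] at hp
    rw [hp.2.1]
  · intro w hw
    rw [SPSPS.degOut, funext (circ_degR K m r' t ht), Finset.sup_const ⟨w, hw⟩]

theorem circ_output (m r' t : ℕ) (h : m + 1 ≤ (r' + 1) * t) :
    (circ K m r' t).output = imm K (m + 1) := by
  rw [imm_blocks K m (r' + 1) t h, ofFn_prod_apply', SPSPS.output]
  refine Finset.sum_congr rfl fun w _ => ?_
  rw [SPSPS.valR, funext (circ_valS K m r' t)]
  simp only [circ, Multiset.map_map, one_smul]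
  rfl

theorem exists_circ (m r' t : ℕ) (ht : 0 < t) (h : m + 1 ≤ (r' + 1) * t) :
    ∃ (l b p s r : ℕ)
      (C : SPSPS K (Fin (m + 1) × Fin (m + 1) × Fin (m + 1)) (Fin l) (Fin b) (Fin p) (Fin s)
        (Fin r)),
      C.IsHomogeneous ∧ C.output = imm K (m + 1) ∧
        C.size = 2 * (m + 1) ^ 3 + (r' + 1) * (m + 1) ^ 2 + (r' + 1) * (m + 1) ^ (t + 1) +
          (m + 1) ^ r' + 1 := by
  have hs := reindex_spec (circ K m r' t) (Fintype.equivFin _) (Fintype.equivFin _)
    (Fintype.equivFin _) (Fintype.equivFin _) (Fintype.equivFin _) (circ_hom K m r' t ht)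
  refine ⟨_, _, _, _, _, _, hs.1, hs.2.trans (circ_output K m r' t h), ?_⟩
  simp only [SPSPS.size, Fintype.card_fin, Fintype.card_prod, Fintype.card_fun]
  ring

end Crest.Agent.R327
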