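import Mathlib

set_option autoImplicit false

namespace Crest.Agent.R327

open Matrix

theorem mrank_add_le {K : Type*} [Field K] {m n : Type*} [Fintype m] [Fintype n]
    (A B : Matrix m n K) : (A + B).rank ≤ A.rank + B.rank := by
  unfold Matrix.rank
  rw [Matrix.mulVecLin_add]
  have h : LinearMap.range (A.mulVecLin + B.mulVecLin) ≤
      LinearMap.range A.mulVecLin ⊔ LinearMap.range B.mulVecLin := by
    rintro _ ⟨x, rfl⟩
    exact Submodule.add_mem_sup ⟨x, rfl⟩ ⟨x, rfl⟩
  exact (Submodule.finrank_mono h).trans (Submodule.finrank_add_le_finrank_add_finrank _ _)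

/-- The rank of a square matrix does not change under a field extension. -/
theorem mrank_map {k F : Type*} [Field k] [Field F] (f : k →+* F) {m : Type*} [Fintype m]
    [DecidableEq m] (M : Matrix m m k) : (M.map f).rank = M.rank := by
  classical
  obtain ⟨L, L', D, hM⟩ := Matrix.Pivot.exists_list_transvec_mul_diagonal_mul_list_transvec M
  set U := (L.map Matrix.TransvectionStruct.toMatrix).prod with hU
  set V := (L'.map Matrix.TransvectionStruct.toMatrix).prod with hV
  have hUd : U.det = 1 := Matrix.TransvectionStruct.det_toMatrix_prod L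
  have hVd : V.det = 1 := Matrix.TransvectionStruct.det_toMatrix_prod L'
  have hUd' : (U.map f).det = 1 := by
    have := (RingHom.map_det f U).symm
    rw [hUd, map_one] at this
    simpa using this
  have hVd' : (V.map f).det = 1 := by
    have := (RingHom.map_det f V).symm
    rw [hVd, map_one] at this
    simpa using this
  have h1 : M.rank = (diagonal D).rank := by
    rw [hM, rank_mul_eq_left_of_isUnit_det _ _ (by rw [hVd]; exact isUnit_one),
      rank_mul_eq_right_of_isUnit_det _ _ (by rw [hUd]; exact isUnit_one)]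
  have h2 : (M.map f).rank = (diagonal (fun i => f (D i))).rank := by
    rw [hM, Matrix.map_mul, Matrix.map_mul, Matrix.diagonal_map (map_zero f),
      rank_mul_eq_left_of_isUnit_det _ _ (by rw [hVd']; exact isUnit_one),
      rank_mul_eq_right_of_isUnit_det _ _ (by rw [hUd']; exact isUnit_one)]
  rw [h1, h2, rank_diagonal, rank_diagonal]
  simp

/-- Natural-number matrices have the same rank over every field of characteristic zero. -/
theorem mrank_natCast {K : Type*} [Field K] [CharZero K] {m : Type*} [Fintype m]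
    [DecidableEq m] (N : Matrix m m ℕ) :
    (N.map (Nat.cast : ℕ → K)).rank = (N.map (Nat.cast : ℕ → ℝ)).rank := by
  have h1 := mrank_map (algebraMap ℚ K) (N.map (Nat.cast : ℕ → ℚ))
  have h2 := mrank_map (algebraMap ℚ ℝ) (N.map (Nat.cast : ℕ → ℚ))
  have e1 : (N.map (Nat.cast : ℕ → ℚ)).map (algebraMap ℚ K) = N.map (Nat.cast : ℕ → K) := by
    ext i j; simp
  have e2 : (N.map (Nat.cast : ℕ → ℚ)).map (algebraMap ℚ ℝ) = N.map (Nat.cast : ℕ → ℝ) := by
    ext i j; simp
  rw [← e1, ← e2, h1, h2]

/-- `tr(B)^2 ≤ rank(B) tr(B^2)` for a real symmetric matrix. -/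
theorem trace_sq_le_rank_mul {m : Type*} [Fintype m] [DecidableEq m] (B : Matrix m m ℝ)
    (hB : B.IsHermitian) : B.trace ^ 2 ≤ (B.rank : ℝ) * (B * B).trace := by
  classical
  have h1 : B.trace = ∑ i, hB.eigenvalues i := by
    simpa using hB.trace_eq_sum_eigenvalues
  have h2 : (B * B).trace = ∑ i, hB.eigenvalues i ^ 2 := by
    have hs := hB.spectral_theorem
    rw [Unitary.conjStarAlgAut_apply] at hs
    set U : Matrix m m ℝ := (hB.eigenvectorUnitary : Matrix m m ℝ) with hU
    set D : Matrix m m ℝ := diagonal (RCLike.ofReal ∘ hB.eigenvalues) with hD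
    have hUU : star U * U = 1 := by
      rw [hU]; exact Unitary.coe_star_mul_self _
    have : B * B = U * (D * D) * star U := by
      conv_lhs => rw [hs]
      calc U * D * star U * (U * D * star U) = U * D * (star U * U) * D * star U := by
            simp only [Matrix.mul_assoc]
        _ = U * (D * D) * star U := by rw [hUU]; simp only [Matrix.mul_one, Matrix.mul_assoc]
    rw [this, Matrix.trace_mul_cycle, hUU, Matrix.one_mul, hD, diagonal_mul_diagonal,
      trace_diagonal]
    simp [sq]
  rw [h1, h2, hB.rank_eq_card_non_zero_eigs, Fintype.card_subtype]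
  set s := Finset.univ.filter (fun i => hB.eigenvalues i ≠ 0) with hs
  have h3 : ∑ i, hB.eigenvalues i = ∑ i ∈ s, hB.eigenvalues i := by
    rw [hs, Finset.sum_filter_ne_zero]
  have h4 : ∑ i ∈ s, hB.eigenvalues i ^ 2 ≤ ∑ i, hB.eigenvalues i ^ 2 :=
    Finset.sum_le_sum_of_subset_of_nonneg (Finset.subset_univ _) (fun i _ _ => sq_nonneg _)
  rw [h3]
  calc (∑ i ∈ s, hB.eigenvalues i) ^ 2 ≤ (s.card : ℝ) * ∑ i ∈ s, hB.eigenvalues i ^ 2 :=
        sq_sum_le_card_mul_sum_sq
    _ ≤ _ := by gcongr

/-- The second-moment lower bound for the rank of a real square matrix. -/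
theorem sq_frob_le_rank_mul {m : Type*} [Fintype m] [DecidableEq m] (M : Matrix m m ℝ) :
    (∑ S, ∑ T, M T S ^ 2) ^ 2 ≤
      (M.rank : ℝ) * ∑ S₁, ∑ S₂, (∑ T, M T S₁ * M T S₂) ^ 2 := by
  have hB : (Mᵀ * M).IsHermitian := by
    have := Matrix.isHermitian_conjTranspose_mul_self M
    simpa using this
  have h := trace_sq_le_rank_mul (Mᵀ * M) hB
  rw [Matrix.rank_transpose_mul_self] at h
  have e1 : (Mᵀ * M).trace = ∑ S, ∑ T, M T S ^ 2 := by
    simp [Matrix.trace, Matrix.mul_apply, sq]
  have e2 : (Mᵀ * M * (Mᵀ * M)).trace = ∑ S₁, ∑ S₂, (∑ T, M T S₁ * M T S₂) ^ 2 := by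
    simp only [Matrix.trace, Matrix.diag_apply, Matrix.mul_apply, Matrix.transpose_apply, sq]
    refine Finset.sum_congr rfl fun S₁ _ => Finset.sum_congr rfl fun S₂ _ => ?_
    congr 1
    exact Finset.sum_congr rfl fun T _ => mul_comm _ _
  rwa [e1, e2] at h

end Crest.Agent.R327
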