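import Mathlib
import Crest.Agent.R327.Rank

set_option autoImplicit false

namespace Crest.Agent.R327

open MvPolynomial

variable {ι : Type*} [Fintype ι] [DecidableEq ι] {K : Type*} [Field K]

/-- The squarefree exponent vector of a 0/1 vector. -/
noncomputable def mon (S : ι → Fin 2) : ι →₀ ℕ :=
  Finsupp.equivFunOnFinite.symm (fun i => (S i : ℕ))

omit [DecidableEq ι] in
@[simp] theorem mon_apply (S : ι → Fin 2) (i : ι) : mon S i = (S i : ℕ) := rfl

omit [DecidableEq ι] in
theorem mon_injective : Function.Injective (mon : (ι → Fin 2) → ι →₀ ℕ) := by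
  intro S T h
  funext i
  have := congrArg (fun m => m i) h
  simp only [mon_apply] at this
  exact Fin.ext this

/-- The weight of a squarefree monomial. -/
noncomputable def phi (wt : ι → ℝ) (S : ι → Fin 2) : ℝ := Finsupp.weight wt (mon S)

omit [DecidableEq ι] in
theorem weight_eq_sum (wt : ι → ℝ) (m : ι →₀ ℕ) :
    Finsupp.weight wt m = ∑ i, (m i : ℝ) * wt i := by
  rw [Finsupp.weight_apply, Finsupp.sum_fintype _ _ (by simp)]
  simp

omit [DecidableEq ι] in
theorem phi_eq (wt : ι → ℝ) (S : ι → Fin 2) : phi wt S = ∑ i, ((S i : ℕ) : ℝ) * wt i := by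
  simp [phi, weight_eq_sum]

/-- Squarefree monomials of a given weight. -/
def Lev (wt : ι → ℝ) (c : ℝ) : Type _ := {S : ι → Fin 2 // phi wt S = c}

noncomputable instance (wt : ι → ℝ) (c : ℝ) : Fintype (Lev wt c) := by
  classical
  unfold Lev
  infer_instance

noncomputable instance (wt : ι → ℝ) (c : ℝ) : DecidableEq (Lev wt c) := Classical.decEq _

theorem sum_Lev {M : Type*} [AddCommMonoid M] (wt : ι → ℝ) (c : ℝ) (g : (ι → Fin 2) → M) :
    ∑ S : Lev wt c, g S.1 = ∑ S, if phi wt S = c then g S else 0 := by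
  classical
  rw [← Finset.sum_filter]
  symm
  exact Finset.sum_subtype _ (by simp) g

/-- The block of multiplication by `f` from weight `c` to weight `c'`. -/
noncomputable def blk (wt : ι → ℝ) (c c' : ℝ) (f : MvPolynomial ι K) :
    Matrix (Lev wt c') (Lev wt c) K :=
  fun T S => coeff (mon T.1) (f * monomial (mon S.1) 1)

/-- The weighted rank measure. -/
noncomputable def mu (wt : ι → ℝ) (f : MvPolynomial ι K) : ℝ :=
  ∑ c ∈ Finset.univ.image (phi wt), Real.exp c * ((blk wt c c f).rank : ℝ)

/-- The normalising partition sum. -/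
noncomputable def DD (wt : ι → ℝ) : ℝ := ∑ S : ι → Fin 2, Real.exp (phi wt S)

theorem DD_pos (wt : ι → ℝ) : 0 < DD wt :=
  Finset.sum_pos (fun _ _ => Real.exp_pos _) Finset.univ_nonempty

theorem mu_nonneg (wt : ι → ℝ) (f : MvPolynomial ι K) : 0 ≤ mu wt f :=
  Finset.sum_nonneg fun _ _ => by positivity

theorem mu_zero (wt : ι → ℝ) : mu wt (0 : MvPolynomial ι K) = 0 := by
  unfold mu
  refine Finset.sum_eq_zero fun c _ => ?_
  have : blk wt c c (0 : MvPolynomial ι K) = 0 := by
    ext T S; simp [blk]
  rw [this, Matrix.rank_zero]; simp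

theorem mu_add_le (wt : ι → ℝ) (f g : MvPolynomial ι K) :
    mu wt (f + g) ≤ mu wt f + mu wt g := by
  unfold mu
  rw [← Finset.sum_add_distrib]
  refine Finset.sum_le_sum fun c _ => ?_
  have : blk wt c c (f + g) = blk wt c c f + blk wt c c g := by
    ext T S; simp [blk, add_mul]
  rw [this, ← mul_add]
  have h := mrank_add_le (blk wt c c f) (blk wt c c g)
  have h' : ((blk wt c c f + blk wt c c g).rank : ℝ) ≤
      ((blk wt c c f).rank : ℝ) + ((blk wt c c g).rank : ℝ) := by exact_mod_cast h
  exact mul_le_mul_of_nonneg_left h' (Real.exp_pos _).le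

theorem mu_sum_le (wt : ι → ℝ) {β : Type*} (s : Finset β) (f : β → MvPolynomial ι K) :
    mu wt (∑ b ∈ s, f b) ≤ ∑ b ∈ s, mu wt (f b) := by
  classical
  induction s using Finset.induction_on with
  | empty => simp [mu_zero]
  | insert a s ha ih =>
    rw [Finset.sum_insert ha, Finset.sum_insert ha]
    exact (mu_add_le _ _ _).trans (by linarith)

theorem blk_mul (wt : ι → ℝ) (c c' a : ℝ) (p q : MvPolynomial ι K)
    (hp : IsWeightedHomogeneous wt p a) :
    blk wt c c' (q * p) = blk wt (c + a) c' q * blk wt c (c + a) p := by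
  classical
  ext T S
  rw [Matrix.mul_apply]
  simp only [blk]
  set h : MvPolynomial ι K := p * monomial (mon S.1) 1 with hh
  have hw : IsWeightedHomogeneous wt h (a + c) := by
    refine hp.mul (isWeightedHomogeneous_monomial wt _ _ ?_)
    exact S.2
  let g : (ι →₀ ℕ) → K := fun R => coeff (mon T.1) (q * monomial R 1) * coeff R h
  have e1 : coeff (mon T.1) (q * p * monomial (mon S.1) 1) = ∑ R ∈ h.support, g R := by
    rw [mul_assoc, ← hh]
    conv_lhs => rw [h.as_sum, Finset.mul_sum, coeff_sum]
    refine Finset.sum_congr rfl fun R _ => ?_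
    have : (monomial R (coeff R h) : MvPolynomial ι K) = monomial R 1 * C (coeff R h) := by
      rw [mul_comm, C_mul_monomial, mul_one]
    rw [this, ← mul_assoc, mul_comm _ (C _), coeff_C_mul, mul_comm]
  have e2 : ∑ R : Lev wt (c + a), coeff (mon T.1) (q * monomial (mon R.1) 1) * coeff (mon R.1) h
      = ∑ R ∈ Finset.univ.image (fun R : Lev wt (c + a) => mon R.1), g R := by
    rw [Finset.sum_image]
    intro R _ R' _ hR
    exact Subtype.ext (mon_injective hR)
  rw [e1, e2]
  have s1 : Function.support g ⊆ h.support := by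
    intro R hR
    simp only [Function.mem_support, g] at hR
    simpa using right_ne_zero_of_mul hR
  have s2 : Function.support g ⊆ (Finset.univ.image (fun R : Lev wt (c + a) => mon R.1)) := by
    intro R hR
    simp only [Function.mem_support, g] at hR
    have h1 := left_ne_zero_of_mul hR
    have h2 := right_ne_zero_of_mul hR
    rw [coeff_mul_monomial'] at h1
    have hle : R ≤ mon T.1 := by
      by_contra hc
      simp [hc] at h1
    have hlt : ∀ i, R i < 2 := fun i => lt_of_le_of_lt (hle i) (T.1 i).2
    have hR' : mon (fun i => (⟨R i, hlt i⟩ : Fin 2)) = R := by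
      ext i; simp
    have hwt : Finsupp.weight wt R = a + c := hw h2
    simp only [Finset.coe_image, Finset.coe_univ, Set.image_univ, Set.mem_range]
    refine ⟨⟨fun i => (⟨R i, hlt i⟩ : Fin 2), ?_⟩, hR'⟩
    rw [phi, hR', hwt, add_comm]
  exact (finsum_eq_sum_of_support_subset g s1).symm.trans (finsum_eq_sum_of_support_subset g s2)

theorem sum_exp_card_le (wt : ι → ℝ) (a : ℝ) :
    ∑ c ∈ Finset.univ.image (phi wt), Real.exp c * (Fintype.card (Lev wt (c + a)) : ℝ) ≤
      DD wt * Real.exp (-a) := by
  classical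
  have e1 : ∀ c : ℝ, Real.exp c * (Fintype.card (Lev wt (c + a)) : ℝ) =
      ∑ S : ι → Fin 2, if phi wt S - a = c then Real.exp (phi wt S) * Real.exp (-a) else 0 := by
    intro c
    have := sum_Lev wt (c + a) (fun _ => Real.exp c)
    simp only [Finset.sum_const, Finset.card_univ, nsmul_eq_mul] at this
    rw [mul_comm, this]
    refine Finset.sum_congr rfl fun S _ => ?_
    by_cases h : phi wt S = c + a
    · rw [if_pos h, if_pos (by linarith), h, ← Real.exp_add]; congr 1; ring
    · rw [if_neg h, if_neg (fun h' => h (by linarith))]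
  simp_rw [e1]
  rw [Finset.sum_comm, DD, Finset.sum_mul]
  refine Finset.sum_le_sum fun S _ => ?_
  rw [Finset.sum_ite_eq]
  split_ifs
  · exact le_rfl
  · positivity

theorem mu_mul_le (wt : ι → ℝ) (p q : MvPolynomial ι K) (a b : ℝ)
    (hp : IsWeightedHomogeneous wt p a) (hq : IsWeightedHomogeneous wt q (-b)) :
    mu wt (p * q) ≤ DD wt * Real.exp (-((a + b) / 2)) := by
  by_cases hab : a = b
  · subst hab
    have : (a + a) / 2 = a := by ring
    rw [this]
    refine le_trans ?_ (sum_exp_card_le wt a)
    refine Finset.sum_le_sum fun c _ => ?_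
    refine mul_le_mul_of_nonneg_left ?_ (Real.exp_pos _).le
    rw [mul_comm p q, blk_mul wt c c a p q hp]
    have h1 := Matrix.rank_mul_le_left (blk wt (c + a) c q) (blk wt c (c + a) p)
    have h2 := Matrix.rank_le_card_width (blk wt (c + a) c q)
    exact Nat.cast_le.2 (h1.trans h2)
  · have : mu wt (p * q) = 0 := by
      unfold mu
      refine Finset.sum_eq_zero fun c _ => ?_
      have : blk wt c c (p * q) = 0 := by
        ext T S
        have hw : IsWeightedHomogeneous wt (p * q * monomial (mon S.1) 1) (a + -b + c) :=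
          (hp.mul hq).mul (isWeightedHomogeneous_monomial wt _ _ S.2)
        simp only [blk, Matrix.zero_apply]
        refine hw.coeff_eq_zero _ ?_
        have hT : Finsupp.weight wt (mon T.1) = c := T.2
        rw [hT]
        intro h
        apply hab
        linarith
      rw [this, Matrix.rank_zero]; simp
    rw [this]
    exact mul_nonneg (DD_pos wt).le (Real.exp_pos _).le

/-- Two-valued weights: `lam * (1 - α)` on the positive variables, `- lam * α` on the others. -/
noncomputable def wtOf (pos : ι → Bool) (lam α : ℝ) : ι → ℝ :=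
  fun i => lam * ((if pos i then 1 else 0) - α)

/-- The loss factor of a homogeneous factor of degree `e`. -/
noncomputable def FF (lam α : ℝ) (e : ℕ) : ℝ :=
  ∑ j ∈ Finset.range (e + 1), Real.exp (-(|lam * ((j : ℝ) - α * e)| / 2))

theorem FF_nonneg (lam α : ℝ) (e : ℕ) : 0 ≤ FF lam α e :=
  Finset.sum_nonneg fun _ _ => (Real.exp_pos _).le

omit [DecidableEq ι] in
theorem exists_decomp (pos : ι → Bool) (lam α : ℝ) (Q : MvPolynomial ι K) (e : ℕ)
    (hQ : Q.IsHomogeneous e) :
    ∃ Qj : ℕ → MvPolynomial ι K, Q = ∑ j ∈ Finset.range (e + 1), Qj j ∧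
      ∀ j, IsWeightedHomogeneous (wtOf pos lam α) (Qj j) (lam * ((j : ℝ) - α * e)) := by
  classical
  let pd : (ι →₀ ℕ) → ℕ := fun m => ∑ i, if pos i then m i else 0
  have hdeg : ∀ m ∈ Q.support, ∑ i, m i = e := by
    intro m hm
    have h1 : m.degree = e := by
      by_contra hc
      exact (mem_support_iff.1 hm) (hQ.coeff_eq_zero hc)
    rw [← h1, Finsupp.degree_eq_sum]
  refine ⟨fun j => ∑ m ∈ Q.support with pd m = j, monomial m (coeff m Q), ?_, ?_⟩
  · rw [Finset.sum_fiberwise_of_maps_to]
    · exact Q.as_sum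
    · intro m hm
      rw [Finset.mem_range, Nat.lt_succ_iff, ← hdeg m hm]
      refine Finset.sum_le_sum fun i _ => ?_
      split_ifs <;> simp
  · intro j
    refine IsWeightedHomogeneous.sum _ _ _ fun m hm => ?_
    rw [Finset.mem_filter] at hm
    refine isWeightedHomogeneous_monomial _ _ _ ?_
    rw [weight_eq_sum, ← hm.2, ← hdeg m hm.1]
    simp only [wtOf, pd]
    push_cast
    rw [Finset.mul_sum, ← Finset.sum_sub_distrib, Finset.mul_sum]
    refine Finset.sum_congr rfl fun i _ => ?_
    split_ifs <;> ring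

theorem mu_prod_aux (pos : ι → Bool) (lam α : ℝ) (m : Multiset (MvPolynomial ι K × ℕ))
    (h : ∀ x ∈ m, x.1.IsHomogeneous x.2) :
    ∀ (p q : MvPolynomial ι K) (a b : ℝ), IsWeightedHomogeneous (wtOf pos lam α) p a →
      IsWeightedHomogeneous (wtOf pos lam α) q (-b) →
      mu (wtOf pos lam α) (p * q * (m.map Prod.fst).prod) ≤
        DD (wtOf pos lam α) * Real.exp (-((a + b) / 2)) *
          (m.map (fun x => FF lam α x.2)).prod := by
  induction m using Multiset.induction_on with
  | empty =>
    intro p q a b hp hq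
    simpa using mu_mul_le _ p q a b hp hq
  | cons x m ih =>
    intro p q a b hp hq
    have ih' := ih (fun y hy => h y (Multiset.mem_cons_of_mem hy))
    obtain ⟨Qj, hsum, hQj⟩ := exists_decomp pos lam α x.1 x.2 (h x (Multiset.mem_cons_self _ _))
    rw [Multiset.map_cons, Multiset.prod_cons, Multiset.map_cons, Multiset.prod_cons, hsum,
      Finset.sum_mul, Finset.mul_sum]
    refine (mu_sum_le _ _ _).trans ?_
    rw [FF, Finset.sum_mul, Finset.mul_sum]
    refine Finset.sum_le_sum fun j _ => ?_
    set ω := lam * ((j : ℝ) - α * x.2) with hω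
    rcases le_total 0 ω with h0 | h0
    · have := ih' (p * Qj j) q (a + ω) b (hp.mul (hQj j)) hq
      rw [abs_of_nonneg h0]
      calc _ = mu (wtOf pos lam α) (p * Qj j * q * (m.map Prod.fst).prod) := by
            congr 1; ring
        _ ≤ _ := this
        _ = _ := by
            have : -((a + ω + b) / 2) = -((a + b) / 2) + -(ω / 2) := by ring
            rw [this, Real.exp_add]; ring
    · have hq' : IsWeightedHomogeneous (wtOf pos lam α) (q * Qj j) (-(b + -ω)) := by
        have := hq.mul (hQj j)
        convert this using 1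
        ring
      have := ih' p (q * Qj j) a (b + -ω) hp hq'
      rw [abs_of_nonpos h0]
      calc _ = mu (wtOf pos lam α) (p * (q * Qj j) * (m.map Prod.fst).prod) := by
            congr 1; ring
        _ ≤ _ := this
        _ = _ := by
            have : -((a + (b + -ω)) / 2) = -((a + b) / 2) + -(-ω / 2) := by ring
            rw [this, Real.exp_add]; ring

theorem mu_prod_le (pos : ι → Bool) (lam α : ℝ) (m : Multiset (MvPolynomial ι K × ℕ))
    (h : ∀ x ∈ m, x.1.IsHomogeneous x.2) :
    mu (wtOf pos lam α) ((m.map Prod.fst).prod) ≤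
      DD (wtOf pos lam α) * (m.map (fun x => FF lam α x.2)).prod := by
  have := mu_prod_aux pos lam α m h 1 1 0 0 (isWeightedHomogeneous_one _ _)
    (by rw [neg_zero]; exact isWeightedHomogeneous_one _ _)
  simpa using this

end Crest.Agent.R327
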