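import Mathlib
import Crest.Agent.R327.Measure

set_option autoImplicit false

namespace Crest.Agent.R327

theorem FF_zero (lam α : ℝ) : FF lam α 0 = 1 := by
  simp [FF]

theorem FF_le_succ (lam α : ℝ) (e : ℕ) : FF lam α e ≤ (e : ℝ) + 1 := by
  unfold FF
  calc _ ≤ ∑ _j ∈ Finset.range (e + 1), (1 : ℝ) := by
        refine Finset.sum_le_sum fun j _ => ?_
        rw [Real.exp_le_one_iff]
        have := abs_nonneg (lam * ((j : ℝ) - α * e))
        linarith
    _ = _ := by simp

theorem FF_one (lam α : ℝ) (hl : 0 ≤ lam) (h1 : 1 / 4 ≤ α) (h2 : α ≤ 3 / 4) :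
    FF lam α 1 ≤ 2 * Real.exp (-(lam / 8)) := by
  unfold FF
  rw [Finset.sum_range_succ, Finset.sum_range_one, two_mul]
  refine add_le_add ?_ ?_
  · rw [Real.exp_le_exp]
    have : |lam * (((0 : ℕ) : ℝ) - α * (1 : ℕ))| = lam * α := by
      rw [abs_of_nonpos (by push_cast; nlinarith)]; push_cast; ring
    rw [this]; nlinarith
  · rw [Real.exp_le_exp]
    have : |lam * (((1 : ℕ) : ℝ) - α * (1 : ℕ))| = lam * (1 - α) := by
      rw [abs_of_nonneg (by push_cast; nlinarith)]; push_cast; ring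
    rw [this]; nlinarith

theorem sum_exp_dist_le (lam x ρ : ℝ) (hl : 0 ≤ lam) (j₀ N : ℕ) (hρ : |x - j₀| = ρ) :
    ∑ j ∈ Finset.range N, Real.exp (-(|lam * ((j : ℝ) - x)| / 2)) ≤
      Real.exp (-(lam * ρ / 2)) +
        (2 + N * Real.exp (-(lam / 2))) * (Real.exp (-(lam / 2)) * Real.exp (lam * ρ / 2)) := by
  set A := Real.exp (-(lam * ρ / 2)) with hA
  set q := Real.exp (-(lam / 2)) with hq
  set B := q * Real.exp (lam * ρ / 2) with hB
  have hA0 : 0 ≤ A := (Real.exp_pos _).le
  have hq0 : 0 ≤ q := (Real.exp_pos _).le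
  have hB0 : 0 ≤ B := by positivity
  have key : ∀ (j : ℕ) (t : ℝ), t ≤ |(j : ℝ) - j₀| →
      Real.exp (-(|lam * ((j : ℝ) - x)| / 2)) ≤ Real.exp (-(lam * (t - ρ) / 2)) := by
    intro j t ht
    rw [Real.exp_le_exp, abs_mul, abs_of_nonneg hl]
    have h1 : |(j : ℝ) - j₀| ≤ |(j : ℝ) - x| + |x - j₀| := abs_sub_le _ _ _
    have h2 : t - ρ ≤ |(j : ℝ) - x| := by linarith
    have := mul_le_mul_of_nonneg_left h2 hl
    linarith
  have hB' : Real.exp (-(lam * (1 - ρ) / 2)) = B := by
    rw [hB, hq, ← Real.exp_add]; congr 1; ring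
  have hqB : Real.exp (-(lam * (2 - ρ) / 2)) = q * B := by
    rw [hB, hq, ← Real.exp_add, ← Real.exp_add]; congr 1; ring
  have pt : ∀ j : ℕ, Real.exp (-(|lam * ((j : ℝ) - x)| / 2)) ≤
      (if j = j₀ then A else 0) + (if j = j₀ + 1 then B else 0) + (if j = j₀ - 1 then B else 0)
        + q * B := by
    intro j
    have hqB0 : 0 ≤ q * B := by positivity
    by_cases h1 : j = j₀
    · have : Real.exp (-(|lam * ((j : ℝ) - x)| / 2)) = A := by
        rw [hA, h1, abs_mul, abs_of_nonneg hl, abs_sub_comm, hρ]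
      rw [this, if_pos h1]
      split_ifs <;> linarith
    · by_cases h2 : j = j₀ + 1
      · have := key j 1 (by rw [h2]; simp)
        rw [hB'] at this
        rw [if_neg h1, if_pos h2]
        split_ifs <;> linarith
      · by_cases h3 : j = j₀ - 1
        · have h4 : j₀ = j + 1 := by omega
          have := key j 1 (by rw [h4]; simp)
          rw [hB'] at this
          rw [if_neg h1, if_neg h2, if_pos h3]
          linarith
        · rw [if_neg h1, if_neg h2, if_neg h3]
          have h5 : j₀ + 2 ≤ j ∨ j + 2 ≤ j₀ := by omega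
          have := key j 2 (by
            rcases h5 with h5 | h5
            · have : (j₀ : ℝ) + 2 ≤ j := by exact_mod_cast h5
              rw [abs_of_nonneg (by linarith)]; linarith
            · have : (j : ℝ) + 2 ≤ j₀ := by exact_mod_cast h5
              rw [abs_of_nonpos (by linarith)]; linarith)
          rw [hqB] at this
          linarith
  refine (Finset.sum_le_sum fun j _ => pt j).trans ?_
  simp only [Finset.sum_add_distrib, Finset.sum_ite_eq', Finset.sum_const, Finset.card_range,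
    nsmul_eq_mul]
  have : (2 + N * q) * B = B + B + N * (q * B) := by ring
  rw [this]
  split_ifs <;> linarith

theorem key_ineq (lam y : ℝ) (hl : 1000 ≤ lam) (hy1 : lam * Real.exp (-(lam / 2)) / 4 ≤ y)
    (hy2 : y ≤ lam / 4) :
    Real.exp (-y) + 4 * (Real.exp (-(lam / 2)) * Real.exp y) ≤ Real.exp (-(y / 2)) := by
  set q := Real.exp (-(lam / 2)) with hq
  have hq0 : 0 < q := Real.exp_pos _
  have hy0 : 0 ≤ y := le_trans (by positivity) hy1
  have main : Real.exp (-(y / 2)) + 4 * (q * Real.exp (3 * y / 2)) ≤ 1 := by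
    have h1 : Real.exp (-(y / 2)) ≤ 1 / (1 + y / 2) := by
      rw [Real.exp_neg, one_div]
      exact inv_anti₀ (by positivity) (by linarith [Real.add_one_le_exp (y / 2)])
    rcases le_total 1 y with h | h
    · have h2 : 1 / (1 + y / 2) ≤ 2 / 3 := by
        rw [div_le_div_iff₀ (by positivity) (by norm_num)]; linarith
      have h3 : q * Real.exp (3 * y / 2) ≤ Real.exp (-(lam / 8)) := by
        rw [hq, ← Real.exp_add, Real.exp_le_exp]; linarith
      have h4 : Real.exp (-(lam / 8)) ≤ 1 / 12 := by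
        rw [Real.exp_neg, one_div]
        exact inv_anti₀ (by norm_num) (by linarith [Real.add_one_le_exp (lam / 8)])
      linarith
    · have h2 : 1 / (1 + y / 2) ≤ 1 - y / 4 := by
        rw [div_le_iff₀ (by positivity)]; nlinarith
      have h3 : Real.exp (3 * y / 2) ≤ 8 := by
        have : Real.exp (3 * y / 2) ≤ Real.exp (1 + 1) := by
          rw [Real.exp_le_exp]; linarith
        rw [Real.exp_add] at this
        have h := Real.exp_one_lt_d9
        have h0 := Real.exp_pos 1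
        nlinarith
      have h4 : q * Real.exp (3 * y / 2) ≤ q * 8 := mul_le_mul_of_nonneg_left h3 hq0.le
      have h5 : 250 * q ≤ y := by nlinarith
      linarith
  have e1 : Real.exp (-y) = Real.exp (-(y / 2)) * Real.exp (-(y / 2)) := by
    rw [← Real.exp_add]; congr 1; ring
  have e2 : Real.exp y = Real.exp (3 * y / 2) * Real.exp (-(y / 2)) := by
    rw [← Real.exp_add]; congr 1; ring
  rw [e1, e2]
  have h0 := Real.exp_pos (-(y / 2))
  nlinarith

theorem FF_small (lam ε : ℝ) (e : ℕ) (hl : 1000 ≤ lam) (hε : Real.exp (-(lam / 2)) / 2 ≤ ε)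
    (he : ε * e ≤ 1 / 4) :
    FF lam (1 / 2 + ε) e ≤ Real.exp (-(lam * ε * e / 4)) := by
  rcases Nat.eq_zero_or_pos e with h0 | h0
  · subst h0; simp [FF_zero]
  set q := Real.exp (-(lam / 2)) with hq
  have hq0 : 0 < q := Real.exp_pos _
  have hq1 : q ≤ 1 := by rw [hq, Real.exp_le_one_iff]; linarith
  have he1 : (1 : ℝ) ≤ e := by exact_mod_cast h0
  have hε0 : 0 < ε := by linarith
  have hεe : ε ≤ ε * e := by nlinarith
  have hN : (2 + ((e + 1 : ℕ) : ℝ) * q) ≤ 4 := by
    push_cast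
    have : q * e ≤ 2 * (ε * e) := by nlinarith
    nlinarith
  obtain ⟨j₀, ρ, hρ, hρ1, hρ2⟩ : ∃ (j₀ : ℕ) (ρ : ℝ), |(1 / 2 + ε) * e - j₀| = ρ ∧ ε * e ≤ ρ ∧
      ρ ≤ 1 / 2 := by
    rcases Nat.even_or_odd' e with ⟨m, hm | hm⟩
    · refine ⟨m, ε * e, ?_, le_rfl, by linarith⟩
      have : (1 / 2 + ε) * e - m = ε * e := by rw [hm]; push_cast; ring
      rw [this, abs_of_nonneg (by positivity)]
    · refine ⟨m + 1, 1 / 2 - ε * e, ?_, by linarith, by nlinarith⟩
      have : (1 / 2 + ε) * e - ((m + 1 : ℕ) : ℝ) = -(1 / 2 - ε * e) := by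
        rw [hm]; push_cast; ring
      rw [this, abs_neg, abs_of_nonneg (by linarith)]
  have h1 := sum_exp_dist_le lam ((1 / 2 + ε) * e) ρ (by linarith) j₀ (e + 1) hρ
  have h2 := key_ineq lam (lam * ρ / 2) hl (by rw [← hq]; nlinarith) (by nlinarith)
  unfold FF
  refine h1.trans ?_
  rw [← hq] at h2 ⊢
  have h3 : (2 + ((e + 1 : ℕ) : ℝ) * q) * (q * Real.exp (lam * ρ / 2)) ≤
      4 * (q * Real.exp (lam * ρ / 2)) := mul_le_mul_of_nonneg_right hN (by positivity)
  have h4 : Real.exp (-(lam * ρ / 2 / 2)) ≤ Real.exp (-(lam * ε * e / 4)) := by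
    rw [Real.exp_le_exp]; nlinarith
  linarith

end Crest.Agent.R327
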