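import Mathlib
import Crest.Agent.R327.Measure

set_option autoImplicit false

namespace Crest.Agent.R327

open MvPolynomial

variable {ι : Type*} [Fintype ι] [DecidableEq ι] {K : Type*} [Field K] {β : Type*}

/-- The number of monomials of the family carrying `S` to `T`. -/
noncomputable def cnt (P : Finset β) (E : β → ι →₀ ℕ) (T S : ι → Fin 2) : ℕ :=
  ∑ π ∈ P, if mon T = E π + mon S then 1 else 0

theorem blk_eq_cnt (wt : ι → ℝ) (c : ℝ) (P : Finset β) (E : β → ι →₀ ℕ) :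
    blk wt c c (∑ π ∈ P, monomial (E π) (1 : K)) =
      (Matrix.of fun (T S : Lev wt c) => cnt P E T.1 S.1).map (Nat.cast : ℕ → K) := by
  ext T S
  simp only [blk, Matrix.map_apply, Matrix.of_apply, cnt, Finset.sum_mul, coeff_sum,
    monomial_mul, coeff_monomial, mul_one]
  push_cast
  refine Finset.sum_congr rfl fun π _ => ?_
  simp only [eq_comm]

theorem sum_by_level (wt : ι → ℝ) (g : (ι → Fin 2) → ℝ) :
    ∑ S, Real.exp (phi wt S) * g S =
      ∑ c ∈ Finset.univ.image (phi wt), Real.exp c * ∑ S : Lev wt c, g S.1 := by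
  classical
  rw [← Finset.sum_fiberwise_of_maps_to (s := Finset.univ) (t := Finset.univ.image (phi wt))
    (g := phi wt) (fun S _ => Finset.mem_image_of_mem _ (Finset.mem_univ S))]
  refine Finset.sum_congr rfl fun c _ => ?_
  rw [sum_Lev wt c g, Finset.sum_filter, Finset.mul_sum]
  refine Finset.sum_congr rfl fun S _ => ?_
  split_ifs with h
  · rw [h]
  · simp

theorem cnt_eq_zero (wt : ι → ℝ) (P : Finset β) (E : β → ι →₀ ℕ)
    (hw : ∀ π ∈ P, Finsupp.weight wt (E π) = 0) (T S : ι → Fin 2) (h : phi wt T ≠ phi wt S) :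
    cnt P E T S = 0 := by
  refine Finset.sum_eq_zero fun π hπ => ?_
  rw [if_neg]
  intro h'
  apply h
  rw [phi, h', map_add, hw π hπ, zero_add, phi]

theorem mu_lower [CharZero K] (wt : ι → ℝ) (P : Finset β) (E : β → ι →₀ ℕ)
    (hw : ∀ π ∈ P, Finsupp.weight wt (E π) = 0) :
    (∑ S, Real.exp (phi wt S) * ∑ T, (cnt P E T S : ℝ)) ^ 2 ≤
      mu wt (∑ π ∈ P, monomial (E π) (1 : K)) *
        ∑ S₁, Real.exp (phi wt S₁) *
          ∑ S₂, (∑ T, (cnt P E T S₁ : ℝ) * (cnt P E T S₂ : ℝ)) ^ 2 := by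
  rw [sum_by_level, sum_by_level, mu]
  refine Finset.sum_sq_le_sum_mul_sum_of_sq_le_mul _ (fun c _ => by positivity)
    (fun c _ => by positivity) fun c _ => ?_
  rw [blk_eq_cnt, mrank_natCast]
  set M : Matrix (Lev wt c) (Lev wt c) ℝ :=
    (Matrix.of fun (T S : Lev wt c) => cnt P E T.1 S.1).map (Nat.cast : ℕ → ℝ) with hM
  have hMa : ∀ T S, M T S = (cnt P E T.1 S.1 : ℝ) := fun T S => rfl
  have h := sq_frob_le_rank_mul M
  simp only [hMa] at h
  have h1 : ∑ S : Lev wt c, ∑ T, (cnt P E T S.1 : ℝ) ≤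
      ∑ S : Lev wt c, ∑ T : Lev wt c, (cnt P E T.1 S.1 : ℝ) ^ 2 := by
    refine Finset.sum_le_sum fun S _ => ?_
    rw [sum_Lev wt c (fun T => (cnt P E T S.1 : ℝ) ^ 2)]
    refine Finset.sum_le_sum fun T _ => ?_
    split_ifs with hT
    · exact_mod_cast Nat.le_self_pow two_ne_zero _
    · rw [cnt_eq_zero wt P E hw T S.1 (by rw [S.2]; exact hT)]; simp
  have h2 : ∑ S₁ : Lev wt c, ∑ S₂ : Lev wt c,
        (∑ T : Lev wt c, (cnt P E T.1 S₁.1 : ℝ) * (cnt P E T.1 S₂.1 : ℝ)) ^ 2 ≤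
      ∑ S₁ : Lev wt c, ∑ S₂, (∑ T, (cnt P E T S₁.1 : ℝ) * (cnt P E T S₂ : ℝ)) ^ 2 := by
    refine Finset.sum_le_sum fun S₁ _ => ?_
    rw [sum_Lev wt c (fun S₂ => (∑ T : Lev wt c, (cnt P E T.1 S₁.1 : ℝ) *
      (cnt P E T.1 S₂ : ℝ)) ^ 2)]
    refine Finset.sum_le_sum fun S₂ _ => ?_
    split_ifs with hT
    · refine pow_le_pow_left₀ (by positivity) ?_ 2
      rw [sum_Lev wt c (fun T => (cnt P E T S₁.1 : ℝ) * (cnt P E T S₂ : ℝ))]
      refine Finset.sum_le_sum fun T _ => ?_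
      split_ifs
      · exact le_rfl
      · positivity
    · positivity
  have h3 : (∑ S : Lev wt c, ∑ T, (cnt P E T S.1 : ℝ)) ^ 2 ≤ (M.rank : ℝ) *
      ∑ S₁ : Lev wt c, ∑ S₂, (∑ T, (cnt P E T S₁.1 : ℝ) * (cnt P E T S₂ : ℝ)) ^ 2 :=
    (pow_le_pow_left₀ (by positivity) h1 2).trans
      (h.trans (mul_le_mul_of_nonneg_left h2 (by positivity)))
  have h4 := mul_le_mul_of_nonneg_left h3 (sq_nonneg (Real.exp c))
  calc _ = Real.exp c ^ 2 * (∑ S : Lev wt c, ∑ T, (cnt P E T S.1 : ℝ)) ^ 2 := by ring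
    _ ≤ _ := h4
    _ = _ := by ring

theorem sum_prod_pi {γ : Type*} [Fintype γ] (g : ι → γ → ℝ) :
    ∑ S : ι → γ, ∏ i, g i (S i) = ∏ i, ∑ s, g i s := by
  rw [Finset.prod_univ_sum, Fintype.piFinset_univ]

/-- One-variable transition indicator. -/
def ind (t : Fin 2) (a : ℕ) (s : Fin 2) : ℝ := if (t : ℕ) = a + s then 1 else 0

theorem cnt_eq_prod (P : Finset β) (E : β → ι →₀ ℕ) (T S : ι → Fin 2) :
    (cnt P E T S : ℝ) = ∑ π ∈ P, ∏ i, ind (T i) (E π i) (S i) := by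
  unfold cnt
  push_cast
  refine Finset.sum_congr rfl fun π _ => ?_
  simp only [ind]
  rw [Finset.prod_boole]
  congr 1
  simp [Finsupp.ext_iff]

omit [DecidableEq ι] in
theorem exp_phi (wt : ι → ℝ) (S : ι → Fin 2) :
    Real.exp (phi wt S) = ∏ i, Real.exp (wt i) ^ (S i : ℕ) := by
  rw [phi_eq, Real.exp_sum]
  refine Finset.prod_congr rfl fun i _ => ?_
  rw [Real.exp_nat_mul]

theorem DD_eq (wt : ι → ℝ) : DD wt = ∏ i, (1 + Real.exp (wt i)) := by
  unfold DD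
  simp_rw [exp_phi]
  rw [sum_prod_pi (fun i (s : Fin 2) => Real.exp (wt i) ^ (s : ℕ))]
  simp

/-- One-variable first moment. -/
noncomputable def kap1 (u : ℝ) (a : ℕ) : ℝ := ∑ s : Fin 2, u ^ (s : ℕ) * ∑ t : Fin 2, ind t a s

/-- One-variable overlap. -/
noncomputable def mm (a₁ a₂ : ℕ) (s₁ s₂ : Fin 2) : ℝ := ∑ t : Fin 2, ind t a₁ s₁ * ind t a₂ s₂

/-- One-variable second moment. -/
noncomputable def kap2 (u : ℝ) (a₁ a₂ b₁ b₂ : ℕ) : ℝ :=
  ∑ s₁ : Fin 2, u ^ (s₁ : ℕ) * ∑ s₂ : Fin 2, mm a₁ a₂ s₁ s₂ * mm b₁ b₂ s₁ s₂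

theorem T1_eq (wt : ι → ℝ) (P : Finset β) (E : β → ι →₀ ℕ) :
    ∑ S, Real.exp (phi wt S) * ∑ T, (cnt P E T S : ℝ) =
      ∑ π ∈ P, ∏ i, kap1 (Real.exp (wt i)) (E π i) := by
  have h1 : ∀ S : ι → Fin 2, ∑ T, (cnt P E T S : ℝ) =
      ∑ π ∈ P, ∏ i, ∑ t : Fin 2, ind t (E π i) (S i) := by
    intro S
    simp_rw [cnt_eq_prod]
    rw [Finset.sum_comm]
    refine Finset.sum_congr rfl fun π _ => ?_
    exact sum_prod_pi (fun i t => ind t (E π i) (S i))
  simp_rw [h1, exp_phi, Finset.mul_sum]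
  rw [Finset.sum_comm]
  refine Finset.sum_congr rfl fun π _ => ?_
  simp_rw [← Finset.prod_mul_distrib]
  exact sum_prod_pi (fun i (s : Fin 2) => Real.exp (wt i) ^ (s : ℕ) * ∑ t : Fin 2, ind t (E π i) s)

theorem T2_eq (wt : ι → ℝ) (P : Finset β) (E : β → ι →₀ ℕ) :
    ∑ S₁, Real.exp (phi wt S₁) * ∑ S₂, (∑ T, (cnt P E T S₁ : ℝ) * (cnt P E T S₂ : ℝ)) ^ 2 =
      ∑ x ∈ P ×ˢ P, ∑ y ∈ P ×ˢ P,
        ∏ i, kap2 (Real.exp (wt i)) (E x.1 i) (E x.2 i) (E y.1 i) (E y.2 i) := by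
  have h1 : ∀ S₁ S₂ : ι → Fin 2, ∑ T, (cnt P E T S₁ : ℝ) * (cnt P E T S₂ : ℝ) =
      ∑ x ∈ P ×ˢ P, ∏ i, mm (E x.1 i) (E x.2 i) (S₁ i) (S₂ i) := by
    intro S₁ S₂
    simp_rw [cnt_eq_prod, Finset.sum_mul_sum, ← Finset.prod_mul_distrib]
    rw [Finset.sum_product, Finset.sum_comm]
    refine Finset.sum_congr rfl fun x₁ _ => ?_
    rw [Finset.sum_comm]
    refine Finset.sum_congr rfl fun x₂ _ => ?_
    set x := (x₁, x₂)
    exact sum_prod_pi (fun i t => ind t (E x.1 i) (S₁ i) * ind t (E x.2 i) (S₂ i))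
  have h2 : ∀ S₁ : ι → Fin 2, ∑ S₂, (∑ T, (cnt P E T S₁ : ℝ) * (cnt P E T S₂ : ℝ)) ^ 2 =
      ∑ x ∈ P ×ˢ P, ∑ y ∈ P ×ˢ P, ∏ i, ∑ s₂ : Fin 2,
        mm (E x.1 i) (E x.2 i) (S₁ i) s₂ * mm (E y.1 i) (E y.2 i) (S₁ i) s₂ := by
    intro S₁
    simp_rw [h1, sq, Finset.sum_mul_sum, ← Finset.prod_mul_distrib]
    rw [Finset.sum_comm]
    refine Finset.sum_congr rfl fun x _ => ?_
    rw [Finset.sum_comm]
    refine Finset.sum_congr rfl fun y _ => ?_
    exact sum_prod_pi (fun i s₂ =>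
      mm (E x.1 i) (E x.2 i) (S₁ i) s₂ * mm (E y.1 i) (E y.2 i) (S₁ i) s₂)
  simp_rw [h2, exp_phi, Finset.mul_sum]
  rw [Finset.sum_comm]
  refine Finset.sum_congr rfl fun x _ => ?_
  rw [Finset.sum_comm]
  refine Finset.sum_congr rfl fun y _ => ?_
  simp_rw [← Finset.prod_mul_distrib]
  exact sum_prod_pi (fun i (s₁ : Fin 2) => Real.exp (wt i) ^ (s₁ : ℕ) * ∑ s₂ : Fin 2,
        mm (E x.1 i) (E x.2 i) s₁ s₂ * mm (E y.1 i) (E y.2 i) s₁ s₂)

/-- First moment of one layer. -/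
theorem layer1 {X : Type*} [Fintype X] [DecidableEq X] (u : ℝ) (hu : 0 < u) (e : X) :
    ∏ x : X, (kap1 u (if x = e then 1 else 0) / (1 + u)) = 1 / (1 + u) := by
  have k0 : kap1 u 0 = 1 + u := by
    simp only [kap1, ind, Fin.sum_univ_two]; simp
  have k1 : kap1 u 1 = 1 := by
    simp only [kap1, ind, Fin.sum_univ_two]; simp
  rw [Finset.prod_eq_single e]
  · simp [k1]
  · intro x _ hx
    have : 1 + u ≠ 0 := by positivity
    simp [k0, hx, this]
  · simp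

/-- Second moment of one layer. -/
theorem layer2 {X : Type*} [Fintype X] [DecidableEq X] (u : ℝ) (hu : 0 < u) (e₁ e₂ f₁ f₂ : X) :
    ∏ x : X, (kap2 u (if x = e₁ then 1 else 0) (if x = e₂ then 1 else 0)
        (if x = f₁ then 1 else 0) (if x = f₂ then 1 else 0) / (1 + u)) =
      ((if e₁ = e₂ ∧ f₁ = f₂ then 1 else 0) + (if e₁ = f₁ ∧ e₂ = f₂ then u else 0)) /
        (1 + u) ^ 2 := by
  have h0 : 1 + u ≠ 0 := by positivity
  by_cases h1 : e₁ = e₂
  · subst h1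
    by_cases h2 : f₁ = f₂
    · subst h2
      by_cases h3 : e₁ = f₁
      · subst h3
        rw [Finset.prod_eq_single e₁]
        · simp [kap2, mm, ind]; field_simp
        · intro x _ hx
          simp [kap2, mm, ind, hx, h0]
        · simp
      · rw [Fintype.prod_eq_mul e₁ f₁ h3]
        · simp [kap2, mm, ind, h3, Ne.symm h3]; field_simp
        · intro x hx
          simp [kap2, mm, ind, hx.1, hx.2, h0]
    · have : ¬ (e₁ = f₁ ∧ e₁ = f₂) := fun h => h2 (h.1.symm.trans h.2)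
      rw [if_neg (by simp [h2]), if_neg this, Finset.prod_eq_zero (Finset.mem_univ f₁)]
      · simp
      · by_cases h3 : f₁ = e₁ <;> simp [kap2, mm, ind, h2, h3]
        by_cases h4 : e₁ = f₂
        · exact absurd (h3.trans h4) h2
        · simp [h4]
  · by_cases h2 : e₁ = f₁
    · subst h2
      by_cases h3 : e₂ = f₂
      · subst h3
        rw [Fintype.prod_eq_mul e₁ e₂ h1]
        · simp [kap2, mm, ind, h1, Ne.symm h1]; field_simp
        · intro x hx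
          simp [kap2, mm, ind, hx.1, hx.2, h0]
      · rw [if_neg (by simp [h1]), if_neg (by simp [h3]),
          Finset.prod_eq_zero (Finset.mem_univ e₂)]
        · simp
        · simp [kap2, mm, ind, Ne.symm h1, h3]
    · rw [if_neg (by simp [h1]), if_neg (by simp [h2]), Finset.prod_eq_zero (Finset.mem_univ e₁)]
      · simp
      · by_cases h3 : e₁ = f₂ <;> simp [kap2, mm, ind, h1, h2, h3]
        all_goals simp_all

end Crest.Agent.R327
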