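import Mathlib
import Crest.Prelude.Def_SPSPS
import Crest.Agent.R327.Lower1
import Crest.Agent.R327.Paths

set_option autoImplicit false

namespace Crest.Agent.R327

open MvPolynomial

/-- The edge used by a path in layer `k`. -/
def edge {m : ℕ} (w : Fin m → Fin (m + 1)) (k : Fin (m + 1)) : Fin (m + 1) × Fin (m + 1) :=
  (ext 0 0 w k.castSucc, ext 0 0 w k.succ)

/-- The exponent vector of a path. -/
noncomputable def EE {m : ℕ} (w : Fin m → Fin (m + 1)) :
    (Fin (m + 1) × Fin (m + 1) × Fin (m + 1)) →₀ ℕ :=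
  ∑ k, Finsupp.single (k, edge w k) 1

theorem EE_apply {m : ℕ} (w : Fin m → Fin (m + 1)) (k : Fin (m + 1))
    (x : Fin (m + 1) × Fin (m + 1)) : EE w (k, x) = if x = edge w k then 1 else 0 := by
  unfold EE
  rw [Finsupp.finsetSum_apply, Finset.sum_eq_single k]
  · simp [Finsupp.single_apply, eq_comm]
  · intro b _ hb
    simp [hb]
  · simp

theorem imm_eq (K : Type*) [CommSemiring K] (m : ℕ) :
    Crest.ArithCircuit.imm K (m + 1) =
      ∑ w ∈ (Finset.univ : Finset (Fin m → Fin (m + 1))), monomial (EE w) (1 : K) := by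
  rw [Crest.ArithCircuit.imm, ofFn_prod_apply']
  refine Finset.sum_congr rfl fun w _ => ?_
  rw [EE, monomial_sum_one]
  rfl

theorem weight_EE {m : ℕ} (wl : Fin (m + 1) → ℝ) (w : Fin m → Fin (m + 1)) :
    Finsupp.weight (fun i : Fin (m + 1) × Fin (m + 1) × Fin (m + 1) => wl i.1) (EE w) =
      ∑ k, wl k := by
  rw [EE, map_sum]
  simp [Finsupp.weight_single]

theorem prod_normalize {ι : Type*} [Fintype ι] [DecidableEq ι] (wt : ι → ℝ) (g : ι → ℝ) :
    ∏ i, g i = DD wt * ∏ i, (g i / (1 + Real.exp (wt i))) := by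
  rw [DD_eq, ← Finset.prod_mul_distrib]
  refine Finset.prod_congr rfl fun i _ => ?_
  have : 1 + Real.exp (wt i) ≠ 0 := by positivity
  field_simp

theorem T1_imm {m : ℕ} (wl : Fin (m + 1) → ℝ) :
    ∑ π ∈ (Finset.univ : Finset (Fin m → Fin (m + 1))),
      ∏ i : Fin (m + 1) × Fin (m + 1) × Fin (m + 1), kap1 (Real.exp (wl i.1)) (EE π i) =
    ((m + 1 : ℕ) : ℝ) ^ m * (DD (fun i : Fin (m + 1) × Fin (m + 1) × Fin (m + 1) => wl i.1) *
      ∏ k, (1 / (1 + Real.exp (wl k)))) := by
  rw [Finset.sum_congr rfl (g := fun _ =>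
    DD (fun i : Fin (m + 1) × Fin (m + 1) × Fin (m + 1) => wl i.1) *
      ∏ k, (1 / (1 + Real.exp (wl k))))]
  · simp
  · intro π _
    rw [prod_normalize (fun i : Fin (m + 1) × Fin (m + 1) × Fin (m + 1) => wl i.1),
      Fintype.prod_prod_type]
    congr 1
    refine Finset.prod_congr rfl fun k _ => ?_
    simp only [EE_apply]
    exact layer1 _ (Real.exp_pos _) _

/-- Compatibility of four paths with a type in one layer. -/
def compat {m : ℕ} (x y : (Fin m → Fin (m + 1)) × (Fin m → Fin (m + 1))) (k : Fin (m + 1))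
    (b : Bool) : Prop :=
  if b then edge x.1 k = edge y.1 k ∧ edge x.2 k = edge y.2 k
  else edge x.1 k = edge x.2 k ∧ edge y.1 k = edge y.2 k

instance {m : ℕ} (x y : (Fin m → Fin (m + 1)) × (Fin m → Fin (m + 1))) (k : Fin (m + 1))
    (b : Bool) : Decidable (compat x y k b) := by unfold compat; infer_instance

theorem T2_term {m : ℕ} (wl : Fin (m + 1) → ℝ)
    (x y : (Fin m → Fin (m + 1)) × (Fin m → Fin (m + 1))) :
    ∏ i : Fin (m + 1) × Fin (m + 1) × Fin (m + 1),
      kap2 (Real.exp (wl i.1)) (EE x.1 i) (EE x.2 i) (EE y.1 i) (EE y.2 i) =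
    DD (fun i : Fin (m + 1) × Fin (m + 1) × Fin (m + 1) => wl i.1) *
      (∏ k, (1 / (1 + Real.exp (wl k)))) ^ 2 *
      ∑ τ : Fin (m + 1) → Bool, (∏ k, (if τ k then Real.exp (wl k) else 1)) *
        (if ∀ k, compat x y k (τ k) then 1 else 0) := by
  rw [prod_normalize (fun i : Fin (m + 1) × Fin (m + 1) × Fin (m + 1) => wl i.1),
    Fintype.prod_prod_type, mul_assoc]
  congr 1
  simp only [EE_apply]
  simp_rw [layer2 _ (Real.exp_pos _)]
  have h1 : ∀ τ : Fin (m + 1) → Bool, (∏ k, (if τ k then Real.exp (wl k) else 1)) *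
        (if ∀ k, compat x y k (τ k) then (1 : ℝ) else 0) =
      ∏ k, ((if τ k then Real.exp (wl k) else 1) * (if compat x y k (τ k) then 1 else 0)) := by
    intro τ
    rw [Finset.prod_mul_distrib, Finset.prod_boole]
    simp
  simp_rw [h1]
  rw [sum_prod_pi (fun k (b : Bool) =>
    (if b then Real.exp (wl k) else 1) * (if compat x y k b then (1 : ℝ) else 0)),
    ← Finset.prod_pow, ← Finset.prod_mul_distrib]
  refine Finset.prod_congr rfl fun k _ => ?_
  simp only [Fintype.sum_bool, compat]
  simp only [if_true, Bool.false_eq_true, if_false, mul_ite, mul_one, mul_zero]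
  rw [div_pow, one_pow, add_comm]
  ring

/-- Allowed quadruples of vertices between two layers of given types. -/
def allowed (V : Type*) [Fintype V] [DecidableEq V] (b b' : Bool) : Finset (V × V × V × V) :=
  if b = b' then
    (if b then Finset.univ.image (fun p : V × V => (p.1, p.2, p.1, p.2))
      else Finset.univ.image (fun p : V × V => (p.1, p.1, p.2, p.2)))
  else Finset.univ.image (fun a : V => (a, a, a, a))

theorem card_allowed (V : Type*) [Fintype V] [DecidableEq V] (b b' : Bool) :
    ((allowed V b b').card : ℝ) ≤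
      if b = b' then (Fintype.card V : ℝ) ^ 2 else (Fintype.card V : ℝ) := by
  unfold allowed
  split_ifs
  · have := Finset.card_image_le (s := (Finset.univ : Finset (V × V)))
      (f := fun p : V × V => (p.1, p.2, p.1, p.2))
    simp only [Finset.card_univ, Fintype.card_prod] at this
    rw [sq]; exact_mod_cast this
  · have := Finset.card_image_le (s := (Finset.univ : Finset (V × V)))
      (f := fun p : V × V => (p.1, p.1, p.2, p.2))
    simp only [Finset.card_univ, Fintype.card_prod] at this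
    rw [sq]; exact_mod_cast this
  · have := Finset.card_image_le (s := (Finset.univ : Finset V))
      (f := fun a : V => (a, a, a, a))
    simp only [Finset.card_univ] at this
    exact_mod_cast this

theorem compat_mem {m : ℕ} (τ : Fin (m + 1) → Bool)
    (x y : (Fin m → Fin (m + 1)) × (Fin m → Fin (m + 1))) (h : ∀ k, compat x y k (τ k))
    (j : Fin m) :
    (x.1 j, x.2 j, y.1 j, y.2 j) ∈ allowed (Fin (m + 1)) (τ j.castSucc) (τ j.succ) := by
  have h1 := h j.castSucc
  have h2 := h j.succ
  unfold compat edge at h1 h2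
  simp only [Prod.mk.injEq, ext_inner, ext_inner'] at h1 h2
  unfold allowed
  cases hb : τ j.castSucc <;> cases hb' : τ j.succ <;> simp [hb, hb'] at h1 h2 ⊢ <;> grind

theorem count_compat {m : ℕ} (τ : Fin (m + 1) → Bool) :
    ∑ x ∈ (Finset.univ : Finset (Fin m → Fin (m + 1))) ×ˢ (Finset.univ : Finset _),
      ∑ y ∈ (Finset.univ : Finset (Fin m → Fin (m + 1))) ×ˢ (Finset.univ : Finset _),
        (if ∀ k, compat x y k (τ k) then (1 : ℝ) else 0) ≤
      ∏ j : Fin m, (if τ j.castSucc = τ j.succ then ((m + 1 : ℕ) : ℝ) ^ 2 else (m + 1 : ℕ)) := by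
  classical
  rw [← Finset.sum_product', Finset.sum_boole]
  have h := Finset.card_le_card_of_injOn
    (s := Finset.filter (fun z : ((Fin m → Fin (m + 1)) × (Fin m → Fin (m + 1))) ×
        ((Fin m → Fin (m + 1)) × (Fin m → Fin (m + 1))) => ∀ k, compat z.1 z.2 k (τ k))
      ((Finset.univ ×ˢ Finset.univ) ×ˢ (Finset.univ ×ˢ Finset.univ)))
    (t := Fintype.piFinset (fun j : Fin m => allowed (Fin (m + 1)) (τ j.castSucc) (τ j.succ)))
    (fun z j => (z.1.1 j, z.1.2 j, z.2.1 j, z.2.2 j)) (by
      intro z hz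
      simp only [Finset.coe_filter, Set.mem_ofPred_eq] at hz
      simp only [Finset.mem_coe, Fintype.mem_piFinset]
      exact compat_mem τ z.1 z.2 hz.2) (by
      intro z _ z' _ hzz
      have h : ∀ j, (z.1.1 j, z.1.2 j, z.2.1 j, z.2.2 j) = (z'.1.1 j, z'.1.2 j, z'.2.1 j, z'.2.2 j) :=
        fun j => congrFun hzz j
      simp only [Prod.mk.injEq] at h
      refine Prod.ext (Prod.ext ?_ ?_) (Prod.ext ?_ ?_) <;> funext j
      · exact (h j).1
      · exact (h j).2.1
      · exact (h j).2.2.1
      · exact (h j).2.2.2)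
  rw [Fintype.card_piFinset] at h
  refine le_trans (Nat.cast_le.2 h) ?_
  rw [Nat.cast_prod]
  refine Finset.prod_le_prod (fun j _ => by positivity) fun j _ => ?_
  simpa using card_allowed (Fin (m + 1)) (τ j.castSucc) (τ j.succ)

theorem abel_bound (φ : ℕ → ℝ) (h : ℝ) (hφ : ∀ j, |φ j| ≤ h) (m : ℕ) (τ : Fin (m + 1) → Bool) :
    ∑ k : Fin (m + 1), (if τ k then φ (k + 1) - φ k else 0) ≤
      ∑ j : Fin m, (if τ j.castSucc = τ j.succ then 0 else h) +
        (if τ (Fin.last m) then φ (m + 1) else 0) - (if τ 0 then φ 0 else 0) := by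
  induction m with
  | zero =>
    simp only [Fin.sum_univ_succ, Finset.univ_eq_empty, Finset.sum_empty]
    cases hb : τ 0 <;> simp [hb]
  | succ m ih =>
    have := ih (fun k => τ k.castSucc)
    rw [Fin.sum_univ_castSucc,
      Fin.sum_univ_castSucc (fun j : Fin (m + 1) => if τ j.castSucc = τ j.succ then (0 : ℝ) else h)]
    simp only [Fin.val_castSucc, Fin.val_last, ← Fin.succ_castSucc,
      Fin.castSucc_zero] at this ⊢
    have h1 := abs_le.1 (hφ (m + 1))
    have h2 : ∀ b b' : Bool, (if b = true then φ (m + 1) else 0) +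
        (if b' = true then φ (m + 1 + 1) - φ (m + 1) else 0) ≤
        (if b = b' then 0 else h) + (if b' = true then φ (m + 1 + 1) else 0) := by
      intro b b'
      cases b <;> cases b' <;> simp <;> linarith [h1.1, h1.2]
    have h3 := h2 (τ (Fin.last m).castSucc) (τ (Fin.last m).succ)
    have h4 : Fin.last (m + 1) = (Fin.last m).succ := rfl
    rw [h4]
    have gen : ∀ A B c w x y z : ℝ, A ≤ B + w - c → w + x ≤ y + z → A + x ≤ B + y + z - c := by
      intros; linarith
    exact gen _ _ _ _ _ _ _ this h3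

theorem chain_sum (A B : ℝ) (m : ℕ) :
    ∑ τ : Fin (m + 1) → Bool, ∏ j : Fin m, (if τ j.castSucc = τ j.succ then A else B) =
      2 * (A + B) ^ m := by
  induction m with
  | zero => simp
  | succ m ih =>
    rw [sum_fun_succ, Finset.sum_comm, pow_succ, ← mul_assoc, ← ih, Finset.sum_mul]
    refine Finset.sum_congr rfl fun w _ => ?_
    simp only [Fin.prod_univ_succ, Fin.castSucc_zero, Fin.cons_zero, Fin.cons_succ,
      ← Fin.succ_castSucc, Fintype.sum_bool]
    cases w 0 <;> simp <;> ring

theorem mu_imm_lower (K : Type*) [Field K] [CharZero K] (m : ℕ) (φ : ℕ → ℝ) (h : ℝ)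
    (hφ : ∀ j, |φ j| ≤ h) (h0 : φ 0 = 0) (hn : φ (m + 1) = 0) :
    DD (fun i : Fin (m + 1) × Fin (m + 1) × Fin (m + 1) => φ (i.1 + 1) - φ i.1) ≤
      mu (fun i : Fin (m + 1) × Fin (m + 1) × Fin (m + 1) => φ (i.1 + 1) - φ i.1)
        (Crest.ArithCircuit.imm K (m + 1)) * (2 * Real.exp (Real.exp h)) := by
  set wl : Fin (m + 1) → ℝ := fun k => φ (k + 1) - φ k with hwl
  have hsum : ∑ k, wl k = 0 := by
    rw [hwl, Fin.sum_univ_eq_sum_range (fun k => φ (k + 1) - φ k), Finset.sum_range_sub, h0, hn,
      sub_zero]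
  have key := mu_lower (K := K) (fun i : Fin (m + 1) × Fin (m + 1) × Fin (m + 1) => wl i.1)
    (Finset.univ : Finset (Fin m → Fin (m + 1))) EE (fun π _ => by rw [weight_EE, hsum])
  rw [T1_eq, T2_eq, T1_imm, ← imm_eq] at key
  simp only [T2_term] at key
  change DD (fun i : Fin (m + 1) × Fin (m + 1) × Fin (m + 1) => wl i.1) ≤
    mu (fun i : Fin (m + 1) × Fin (m + 1) × Fin (m + 1) => wl i.1)
        (Crest.ArithCircuit.imm K (m + 1)) * (2 * Real.exp (Real.exp h))
  set D := DD (fun i : Fin (m + 1) × Fin (m + 1) × Fin (m + 1) => wl i.1) with hD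
  set μ := mu (fun i : Fin (m + 1) × Fin (m + 1) × Fin (m + 1) => wl i.1)
        (Crest.ArithCircuit.imm K (m + 1)) with hμ
  set Q := ∏ k, (1 / (1 + Real.exp (wl k))) with hQ
  set n : ℝ := ((m + 1 : ℕ) : ℝ) with hn'
  set G := Real.exp h with hG
  have hD0 : 0 < D := DD_pos _
  have hμ0 : 0 ≤ μ := mu_nonneg _ _
  have hQ0 : 0 < Q := Finset.prod_pos fun k _ => by positivity
  have hn0 : 0 < n := by positivity
  have hG0 : 0 < G := Real.exp_pos _
  simp only [← Finset.mul_sum] at key
  have hZ : ∑ x ∈ (Finset.univ : Finset (Fin m → Fin (m + 1))) ×ˢ (Finset.univ : Finset _),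
      ∑ y ∈ (Finset.univ : Finset (Fin m → Fin (m + 1))) ×ˢ (Finset.univ : Finset _),
        ∑ τ : Fin (m + 1) → Bool, (∏ k, (if τ k then Real.exp (wl k) else 1)) *
          (if ∀ k, compat x y k (τ k) then 1 else 0) ≤ (n ^ m) ^ 2 * (2 * Real.exp G) := by
    calc _ = ∑ τ : Fin (m + 1) → Bool, (∏ k, (if τ k then Real.exp (wl k) else 1)) *
          ∑ x ∈ (Finset.univ : Finset (Fin m → Fin (m + 1))) ×ˢ (Finset.univ : Finset _),
            ∑ y ∈ (Finset.univ : Finset (Fin m → Fin (m + 1))) ×ˢ (Finset.univ : Finset _),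
              (if ∀ k, compat x y k (τ k) then (1 : ℝ) else 0) := by
          simp only [Finset.mul_sum]
          rw [Finset.sum_comm (s := (Finset.univ : Finset (Fin (m + 1) → Bool)))]
          refine Finset.sum_congr rfl fun x _ => ?_
          rw [Finset.sum_comm]
      _ ≤ ∑ τ : Fin (m + 1) → Bool,
            ∏ j : Fin m, (if τ j.castSucc = τ j.succ then n ^ 2 else G * n) := by
          refine Finset.sum_le_sum fun τ _ => ?_
          have h1 : (∏ k, (if τ k then Real.exp (wl k) else 1)) ≤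
              ∏ j : Fin m, (if τ j.castSucc = τ j.succ then 1 else G) := by
            have a1 : (∏ k, (if τ k then Real.exp (wl k) else 1)) =
                Real.exp (∑ k : Fin (m + 1), (if τ k then φ (k + 1) - φ k else 0)) := by
              rw [Real.exp_sum]
              refine Finset.prod_congr rfl fun k _ => ?_
              split_ifs <;> simp [hwl]
            have a2 : ∏ j : Fin m, (if τ j.castSucc = τ j.succ then 1 else G) =
                Real.exp (∑ j : Fin m, (if τ j.castSucc = τ j.succ then 0 else h)) := by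
              rw [Real.exp_sum]
              refine Finset.prod_congr rfl fun k _ => ?_
              split_ifs <;> simp [hG]
            rw [a1, a2, Real.exp_le_exp]
            have := abel_bound φ h hφ m τ
            simpa [h0, hn] using this
          refine (mul_le_mul h1 (count_compat τ) (by positivity) (by positivity)).trans_eq ?_
          rw [← Finset.prod_mul_distrib]
          refine Finset.prod_congr rfl fun j _ => ?_
          split_ifs <;> simp [hn']
      _ = 2 * (n ^ 2 + G * n) ^ m := chain_sum _ _ _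
      _ ≤ _ := by
          have b1 : n ^ 2 + G * n = n ^ 2 * (1 + G / n) := by field_simp
          have b2 : (1 + G / n) ^ m ≤ Real.exp G := by
            calc (1 + G / n) ^ m ≤ Real.exp (G / n) ^ m := by
                  gcongr
                  linarith [Real.add_one_le_exp (G / n)]
              _ = Real.exp (m * (G / n)) := by rw [Real.exp_nat_mul]
              _ ≤ Real.exp G := by
                  rw [Real.exp_le_exp, ← mul_div_assoc, div_le_iff₀ hn0, hn']
                  push_cast
                  nlinarith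
          rw [b1, mul_pow, ← pow_mul, ← pow_mul, mul_comm m 2]
          have : 0 ≤ n ^ (2 * m) := by positivity
          nlinarith
  have k2 : (n ^ m * (D * Q)) ^ 2 ≤ μ * (D * Q ^ 2 * ((n ^ m) ^ 2 * (2 * Real.exp G))) :=
    key.trans (by gcongr)
  have k3 : (D * Q ^ 2 * (n ^ m) ^ 2) * D ≤
      (D * Q ^ 2 * (n ^ m) ^ 2) * (μ * (2 * Real.exp G)) := by
    calc _ = (n ^ m * (D * Q)) ^ 2 := by ring
      _ ≤ _ := k2
      _ = _ := by ring
  exact le_of_mul_le_mul_left k3 (by positivity)

end Crest.Agent.R327
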