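import Mathlib
import Crest.Prelude.Def_SPSPS
import Crest.Agent.R327.FBound

set_option autoImplicit false

namespace Crest.Agent.R327

open MvPolynomial Crest.ArithCircuit

theorem isHomogeneous_multiset_prod {ι K β : Type*} [CommSemiring K] (m : Multiset β)
    (f : β → MvPolynomial ι K) (d : β → ℕ) (h : ∀ x ∈ m, (f x).IsHomogeneous (d x)) :
    ((m.map f).prod).IsHomogeneous ((m.map d).sum) := by
  induction m using Multiset.induction_on with
  | empty => simpa using isHomogeneous_one ι K
  | cons a m ih =>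
    simp only [Multiset.map_cons, Multiset.prod_cons, Multiset.sum_cons]
    exact (h a (Multiset.mem_cons_self _ _)).mul
      (ih fun x hx => h x (Multiset.mem_cons_of_mem hx))

theorem isHomogeneous_smul {ι K : Type*} [CommSemiring K] {f : MvPolynomial ι K} {d : ℕ}
    (h : f.IsHomogeneous d) (c : K) : (c • f).IsHomogeneous d := by
  rw [smul_eq_C_mul]; exact h.C_mul c

section circuit

variable {K ι L B P S R : Type*} [CommSemiring K] (C : SPSPS K ι L B P S R)

theorem leaf_hom (l : L) : (C.leafVal l).IsHomogeneous (C.leafDeg l) := by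
  unfold SPSPS.leafVal SPSPS.leafDeg
  cases C.leaf l with
  | inl i => exact isHomogeneous_X K i
  | inr c => exact isHomogeneous_C ι c

theorem leafDeg_le (l : L) : C.leafDeg l ≤ 1 := by
  unfold SPSPS.leafDeg
  cases C.leaf l <;> simp

theorem degB_le (b : B) : C.degB b ≤ 1 :=
  Finset.sup_le fun l _ => leafDeg_le C l

variable {C}

theorem valB_hom (hC : C.IsHomogeneous) (b : B) : (C.valB b).IsHomogeneous (C.degB b) :=
  IsHomogeneous.sum _ _ _ fun l hl =>
    isHomogeneous_smul (by rw [← hC.1 b l hl]; exact leaf_hom C l) _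

theorem valP_hom (hC : C.IsHomogeneous) (p : P) : (C.valP p).IsHomogeneous (C.degP p) :=
  isHomogeneous_multiset_prod _ _ _ fun b _ => valB_hom hC b

theorem valS_hom (hC : C.IsHomogeneous) (s : S) : (C.valS s).IsHomogeneous (C.degS s) :=
  IsHomogeneous.sum _ _ _ fun p hp =>
    isHomogeneous_smul (by rw [← hC.2.1 s p hp]; exact valP_hom hC p) _

theorem valR_hom (hC : C.IsHomogeneous) (r : R) : (C.valR r).IsHomogeneous (C.degR r) :=
  isHomogeneous_multiset_prod _ _ _ fun s _ => valS_hom hC s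

theorem output_hom (hC : C.IsHomogeneous) : C.output.IsHomogeneous C.degOut :=
  IsHomogeneous.sum _ _ _ fun r hr =>
    isHomogeneous_smul (by rw [← hC.2.2 r hr]; exact valR_hom hC r) _

end circuit

variable {ι : Type*} [Fintype ι] [DecidableEq ι] {K : Type*} [Field K]

theorem mu_smul_le (wt : ι → ℝ) (a : K) (f : MvPolynomial ι K) : mu wt (a • f) ≤ mu wt f := by
  by_cases ha : a = 0
  · rw [ha, zero_smul, mu_zero]; exact mu_nonneg _ _
  · refine le_of_eq (Finset.sum_congr rfl fun c _ => ?_)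
    have : blk wt c c (a • f) = a • blk wt c c f := by
      ext T S; simp [blk]
    rw [this, Matrix.rank_smul_of_mem_nonZeroDivisors _ (mem_nonZeroDivisors_of_ne_zero ha)]

theorem prod_le_exp_sum {β : Type*} (m : Multiset β) (g : β → ℝ) (d : β → ℕ) (c : ℝ)
    (hg : ∀ x, 0 ≤ g x) (h : ∀ x ∈ m, g x ≤ Real.exp (-(c * d x))) :
    (m.map g).prod ≤ Real.exp (-(c * ((m.map d).sum : ℕ))) := by
  induction m using Multiset.induction_on with
  | empty => simp
  | cons a m ih =>
    simp only [Multiset.map_cons, Multiset.prod_cons, Multiset.sum_cons]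
    have h1 := h a (Multiset.mem_cons_self _ _)
    have h2 := ih fun x hx => h x (Multiset.mem_cons_of_mem hx)
    have h3 : 0 ≤ (m.map g).prod := Multiset.prod_nonneg (by
      intro y hy
      obtain ⟨x, _, rfl⟩ := Multiset.mem_map.1 hy
      exact hg x)
    refine (mul_le_mul h1 h2 h3 (Real.exp_pos _).le).trans_eq ?_
    rw [← Real.exp_add]; congr 1; push_cast; ring

theorem FF_le_one_deg (lam α : ℝ) (hl : 1000 ≤ lam) (h1 : 1 / 4 ≤ α) (h2 : α ≤ 3 / 4) (e : ℕ)
    (he : e ≤ 1) : FF lam α e ≤ Real.exp (-(lam / 16 * e)) := by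
  interval_cases e
  · simp [FF_zero]
  · refine (FF_one lam α (by linarith) h1 h2).trans ?_
    have h3 : (2 : ℝ) ≤ Real.exp (lam / 16) := by linarith [Real.add_one_le_exp (lam / 16)]
    have h4 : Real.exp (-(lam / 16 * (1 : ℕ))) = Real.exp (lam / 16) * Real.exp (-(lam / 8)) := by
      rw [← Real.exp_add]; congr 1; push_cast; ring
    rw [h4]
    exact mul_le_mul_of_nonneg_right h3 (Real.exp_pos _).le

theorem mu_valR_le {L B P S R : Type*} [Fintype P] (C : SPSPS K ι L B P S R)
    (hC : C.IsHomogeneous) (pos : ι → Bool) (lam ε σ : ℝ) (n : ℕ) (hl : 1000 ≤ lam)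
    (hε : Real.exp (-(lam / 2)) / 2 ≤ ε) (hε' : ε ≤ 1 / 4) (hσ1 : σ ≤ ε * n / 4)
    (hσ2 : 64 * σ * ε ≤ 1) (r : R) (hr : C.degR r = n) :
    mu (wtOf pos lam (1 / 2 + ε)) (C.valR r) ≤
      DD (wtOf pos lam (1 / 2 + ε)) *
        (((Fintype.card P : ℝ) + 1) * ((n + 1) * Real.exp (-(lam * σ)))) := by
  classical
  have hε0 : 0 < ε := lt_of_lt_of_le (by positivity) hε
  have hD := (DD_pos (wtOf pos lam (1 / 2 + ε))).le
  by_cases hsmall : ∀ s ∈ C.inR r, ε * C.degS s ≤ 1 / 4
  · have h := mu_prod_le pos lam (1 / 2 + ε) ((C.inR r).map fun s => (C.valS s, C.degS s)) (by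
      intro x hx
      obtain ⟨s, _, rfl⟩ := Multiset.mem_map.1 hx
      exact valS_hom hC s)
    simp only [Multiset.map_map, Function.comp_def] at h
    refine h.trans (mul_le_mul_of_nonneg_left ?_ hD)
    have h2 := prod_le_exp_sum (C.inR r) (fun s => FF lam (1 / 2 + ε) (C.degS s)) C.degS
      (lam * ε / 4) (fun s => FF_nonneg _ _ _) (fun s hs => by
        have := FF_small lam ε (C.degS s) hl hε (hsmall s hs)
        convert this using 2
        ring)
    have h3 : ((C.inR r).map C.degS).sum = n := hr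
    rw [h3] at h2
    refine h2.trans ?_
    have h4 : Real.exp (-(lam * ε / 4 * n)) ≤ Real.exp (-(lam * σ)) := by
      rw [Real.exp_le_exp]; nlinarith
    have h5 : (0 : ℝ) ≤ Fintype.card P := Nat.cast_nonneg _
    have h6 : (0 : ℝ) ≤ n := Nat.cast_nonneg _
    have h7 := Real.exp_pos (-(lam * σ))
    nlinarith [mul_nonneg h5 h7.le, mul_nonneg h6 h7.le, mul_nonneg h5 (mul_nonneg h6 h7.le)]
  · push Not at hsmall
    obtain ⟨s, hs, hbig⟩ := hsmall
    obtain ⟨m', hm'⟩ := Multiset.exists_cons_of_mem hs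
    set Q := (m'.map C.valS).prod with hQ
    set e' := (m'.map C.degS).sum with he'
    have hQh : Q.IsHomogeneous e' := isHomogeneous_multiset_prod _ _ _ fun s _ => valS_hom hC s
    have he'n : e' ≤ n := by
      rw [← hr, SPSPS.degR, hm', Multiset.map_cons, Multiset.sum_cons]; omega
    have hval : C.valR r = ∑ p ∈ C.inS s, C.coefS s p • (Q * C.valP p) := by
      rw [SPSPS.valR, hm', Multiset.map_cons, Multiset.prod_cons, ← hQ, SPSPS.valS,
        Finset.sum_mul]
      refine Finset.sum_congr rfl fun p _ => ?_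
      rw [smul_mul_assoc, mul_comm]
    rw [hval]
    refine (mu_sum_le _ _ _).trans ?_
    have hterm : ∀ p ∈ C.inS s, mu (wtOf pos lam (1 / 2 + ε)) (C.coefS s p • (Q * C.valP p)) ≤
        DD (wtOf pos lam (1 / 2 + ε)) * ((n + 1) * Real.exp (-(lam * σ))) := by
      intro p hp
      refine (mu_smul_le _ _ _).trans ?_
      have h := mu_prod_le pos lam (1 / 2 + ε)
        ((Q, e') ::ₘ (C.inP p).map fun b => (C.valB b, C.degB b)) (by
          intro x hx
          rcases Multiset.mem_cons.1 hx with rfl | hx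
          · exact hQh
          · obtain ⟨b, _, rfl⟩ := Multiset.mem_map.1 hx
            exact valB_hom hC b)
      simp only [Multiset.map_cons, Multiset.prod_cons, Multiset.map_map, Function.comp_def] at h
      refine h.trans (mul_le_mul_of_nonneg_left ?_ hD)
      have h2 := prod_le_exp_sum (C.inP p) (fun b => FF lam (1 / 2 + ε) (C.degB b)) C.degB
        (lam / 16) (fun s => FF_nonneg _ _ _) (fun b _ =>
          FF_le_one_deg lam _ hl (by linarith) (by linarith) _ (degB_le C b))
      have h3 : ((C.inP p).map C.degB).sum = C.degS s := hC.2.1 s p hp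
      rw [h3] at h2
      have h4 : Real.exp (-(lam / 16 * C.degS s)) ≤ Real.exp (-(lam * σ)) := by
        rw [Real.exp_le_exp]
        have : 16 * σ ≤ C.degS s := by
          by_contra hc
          push Not at hc
          nlinarith
        nlinarith
      have h5 : FF lam (1 / 2 + ε) e' ≤ (n : ℝ) + 1 := by
        refine (FF_le_succ _ _ _).trans ?_
        have : (e' : ℝ) ≤ n := by exact_mod_cast he'n
        linarith
      refine mul_le_mul h5 (h2.trans h4) ?_ (by positivity)
      refine Multiset.prod_nonneg ?_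
      intro y hy
      obtain ⟨x, _, rfl⟩ := Multiset.mem_map.1 hy
      exact FF_nonneg _ _ _
    refine (Finset.sum_le_card_nsmul _ _ _ hterm).trans ?_
    rw [nsmul_eq_mul, mul_left_comm]
    refine mul_le_mul_of_nonneg_left (mul_le_mul_of_nonneg_right ?_ (by positivity)) hD
    have : (C.inS s).card ≤ Fintype.card P := Finset.card_le_univ _
    have : ((C.inS s).card : ℝ) ≤ Fintype.card P := by exact_mod_cast this
    linarith

theorem mu_output_le {L B P S R : Type*} [Fintype L] [Fintype B] [Fintype P] [Fintype S]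
    [Fintype R] (C : SPSPS K ι L B P S R)
    (hC : C.IsHomogeneous) (pos : ι → Bool) (lam ε σ : ℝ) (n : ℕ) (hl : 1000 ≤ lam)
    (hε : Real.exp (-(lam / 2)) / 2 ≤ ε) (hε' : ε ≤ 1 / 4) (hσ1 : σ ≤ ε * n / 4)
    (hσ2 : 64 * σ * ε ≤ 1) (hn : C.degOut = n) :
    mu (wtOf pos lam (1 / 2 + ε)) C.output ≤
      DD (wtOf pos lam (1 / 2 + ε)) *
        ((C.size : ℝ) ^ 2 * ((n + 1) * Real.exp (-(lam * σ)))) := by
  have hD := (DD_pos (wtOf pos lam (1 / 2 + ε))).le
  refine (mu_sum_le _ _ _).trans ?_
  refine (Finset.sum_le_card_nsmul _ _ _ (fun r hr => (mu_smul_le _ _ _).trans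
    (mu_valR_le C hC pos lam ε σ n hl hε hε' hσ1 hσ2 r ((hC.2.2 r hr).trans hn)))).trans ?_
  rw [nsmul_eq_mul, mul_left_comm, ← mul_assoc (C.inOut.card : ℝ)]
  refine mul_le_mul_of_nonneg_left (mul_le_mul_of_nonneg_right ?_ (by positivity)) hD
  have h1 : C.inOut.card ≤ C.size := by
    have := Finset.card_le_univ C.inOut
    unfold SPSPS.size; omega
  have h2 : Fintype.card P + 1 ≤ C.size := by unfold SPSPS.size; omega
  have h1' : (C.inOut.card : ℝ) ≤ C.size := by exact_mod_cast h1
  have h2' : (Fintype.card P : ℝ) + 1 ≤ C.size := by exact_mod_cast h2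
  rw [sq]
  exact mul_le_mul h1' h2' (by positivity) (by positivity)

end Crest.Agent.R327
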