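import Mathlib
import Crest.Prelude.Def_SPSPS
import Crest.Agent.R327.Upper
import Crest.Agent.R327.Lower2

set_option autoImplicit false

namespace Crest.Agent.R327

open MvPolynomial Crest.ArithCircuit

theorem round_step (α : ℝ) (h0 : 0 ≤ α) (h1 : α ≤ 1) (j : ℕ) :
    round (α * ((j + 1 : ℕ) : ℝ)) = round (α * j) + 1 ∨
      round (α * ((j + 1 : ℕ) : ℝ)) = round (α * j) := by
  have a1 : round (α * j) ≤ round (α * ((j + 1 : ℕ) : ℝ)) := by
    rw [round_eq, round_eq]
    refine Int.floor_mono ?_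
    push_cast; nlinarith
  have a2 : round (α * ((j + 1 : ℕ) : ℝ)) ≤ round (α * j) + 1 := by
    rw [round_eq, round_eq, ← Int.floor_add_one]
    refine Int.floor_mono ?_
    push_cast; nlinarith
  omega

theorem final_ineq (n s lam z : ℝ) (hss : s * s = n) (hs4 : 4 ≤ s) (hl : 1000 ≤ lam) (hz : 0 ≤ z)
    (h2 : 1 ≤ z ^ 2 * ((n + 1) * Real.exp (-(lam * (s / 64)))) * (2 * Real.exp s)) :
    Real.exp (lam * (s / 400)) ≤ z := by
  have hn0 : 0 ≤ n := by nlinarith
  have h3 : (n + 1) * 2 ≤ Real.exp (3 * s) := by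
    have a1 : 1 + s ≤ Real.exp s := by linarith [Real.add_one_le_exp s]
    have a2 : Real.exp (3 * s) = Real.exp s ^ 3 := by
      rw [← Real.exp_nat_mul]; norm_num
    rw [a2]
    calc (n + 1) * 2 ≤ (1 + s) ^ 3 := by nlinarith
      _ ≤ _ := by gcongr
  have h4 : Real.exp (lam * (s / 400)) ^ 2 ≤ z ^ 2 := by
    have b1 : (n + 1) * Real.exp (-(lam * (s / 64))) * (2 * Real.exp s) *
        Real.exp (lam * (s / 400)) ^ 2 ≤ 1 := by
      calc _ = ((n + 1) * 2) * (Real.exp (-(lam * (s / 64))) * Real.exp s *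
            Real.exp (lam * (s / 400)) ^ 2) := by ring
        _ ≤ Real.exp (3 * s) * (Real.exp (-(lam * (s / 64))) * Real.exp s *
            Real.exp (lam * (s / 400)) ^ 2) := by gcongr
        _ = Real.exp (3 * s + (-(lam * (s / 64)) + s + 2 * (lam * (s / 400)))) := by
            rw [← Real.exp_nat_mul, ← Real.exp_add, ← Real.exp_add, ← Real.exp_add]; norm_num
        _ ≤ 1 := by rw [Real.exp_le_one_iff]; nlinarith
    calc Real.exp (lam * (s / 400)) ^ 2 = 1 * Real.exp (lam * (s / 400)) ^ 2 := by ring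
      _ ≤ (z ^ 2 * ((n + 1) * Real.exp (-(lam * (s / 64)))) * (2 * Real.exp s)) *
            Real.exp (lam * (s / 400)) ^ 2 := by gcongr
      _ = z ^ 2 * ((n + 1) * Real.exp (-(lam * (s / 64))) * (2 * Real.exp s) *
            Real.exp (lam * (s / 400)) ^ 2) := by ring
      _ ≤ z ^ 2 * 1 := by gcongr
      _ = _ := by ring
  exact (pow_le_pow_iff_left₀ (by positivity) hz two_ne_zero).1 h4

theorem main_bound (m : ℕ) (hm : Real.exp 1000 ≤ ((m + 1 : ℕ) : ℝ)) (K : Type*) [Field K]
    [CharZero K] {L B P S R : Type*} [Fintype L] [Fintype B] [Fintype P] [Fintype S] [Fintype R]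
    (C : SPSPS K (Fin (m + 1) × Fin (m + 1) × Fin (m + 1)) L B P S R) (hC : C.IsHomogeneous)
    (hout : C.output = imm K (m + 1)) :
    ((m + 1 : ℕ) : ℝ) ^ (Real.sqrt ((m + 1 : ℕ) : ℝ) / 400) ≤ (C.size : ℝ) := by
  set n : ℝ := ((m + 1 : ℕ) : ℝ) with hn
  have hn0 : 0 < n := by positivity
  set lam := Real.log n with hlam
  have hl : 1000 ≤ lam := by
    rw [hlam, Real.le_log_iff_exp_le hn0]; exact hm
  set s := Real.sqrt n with hs
  have hss : s * s = n := Real.mul_self_sqrt hn0.le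
  have hn1 : 1001 ≤ n := le_trans (by linarith [Real.add_one_le_exp (1000 : ℝ)]) hm
  have hs0 : 0 < s := Real.sqrt_pos.2 hn0
  have hs4 : 4 ≤ s := by nlinarith
  have hexp : Real.exp (lam / 2) = s := by
    rw [hs, Real.sqrt_eq_rpow, Real.rpow_def_of_pos hn0]; congr 1; ring
  set k : ℕ := ⌈(n + s) / 2⌉₊ with hk
  have hk1 : (n + s) / 2 ≤ k := Nat.le_ceil _
  have hk2 : (k : ℝ) < (n + s) / 2 + 1 := Nat.ceil_lt_add_one (by positivity)
  set ε : ℝ := k / n - 1 / 2 with hε
  have hεn : ε * n = k - n / 2 := by rw [hε]; field_simp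
  have hε1 : 1 / (2 * s) ≤ ε := by
    rw [div_le_iff₀ (by positivity)]
    have : s * (ε * (2 * s)) = 2 * (ε * n) := by rw [← hss]; ring
    nlinarith
  have hε2 : ε * s ≤ 1 := by
    have : s * (ε * s) = ε * n := by rw [← hss]; ring
    nlinarith
  have hε0 : 0 < ε := lt_of_lt_of_le (by positivity) hε1
  have hε3 : ε ≤ 1 / 4 := by nlinarith
  set α : ℝ := 1 / 2 + ε with hα
  have hαn : α * n = k := by rw [hα, add_mul, hεn]; ring
  let φ : ℕ → ℝ := fun j => lam * ((round (α * j) : ℝ) - α * j)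
  have hφ : ∀ j, |φ j| ≤ lam / 2 := by
    intro j
    have := abs_sub_round (α * j)
    simp only [φ]
    rw [abs_mul, abs_of_nonneg (by linarith), abs_sub_comm]
    nlinarith
  have hφ0 : φ 0 = 0 := by simp [φ]
  have hφn : φ (m + 1) = 0 := by
    simp only [φ]
    rw [← hn, hαn, round_natCast]; simp
  let pos : Fin (m + 1) × Fin (m + 1) × Fin (m + 1) → Bool := fun i =>
    decide (round (α * (((i.1 : ℕ) + 1 : ℕ) : ℝ)) = round (α * (i.1 : ℕ)) + 1)
  have hwt : (fun i : Fin (m + 1) × Fin (m + 1) × Fin (m + 1) => φ (i.1 + 1) - φ i.1) =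
      wtOf pos lam α := by
    funext i
    rcases round_step α (by linarith) (by linarith) i.1 with h | h
    · have hp : pos i = true := decide_eq_true h
      simp only [φ, wtOf, hp]
      rw [h]; simp; ring
    · have hp : pos i = false := decide_eq_false (by rw [h]; omega)
      simp only [φ, wtOf, hp]
      rw [h]; simp; ring
  have hlow := mu_imm_lower K m φ (lam / 2) hφ hφ0 hφn
  rw [hwt, hexp] at hlow
  have hD := DD_pos (wtOf pos lam α)
  have hne : imm K (m + 1) ≠ 0 := by
    intro h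
    rw [h, mu_zero] at hlow
    linarith
  have hhom : (imm K (m + 1)).IsHomogeneous (m + 1) := by
    rw [imm_eq]
    refine IsHomogeneous.sum _ _ _ fun w _ => isHomogeneous_monomial _ ?_
    rw [EE, map_sum]
    simp
  have hdeg : C.degOut = m + 1 := by
    have := output_hom hC
    rw [hout] at this
    exact this.inj_right hhom hne
  have hup := mu_output_le C hC pos lam ε (s / 64) (m + 1) hl
    (by rw [Real.exp_neg, hexp]; convert hε1 using 1; field_simp) hε3
    (by rw [← hn]; nlinarith) (by nlinarith) hdeg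
  rw [hout, ← hn, ← hα] at hup
  have h1 : DD (wtOf pos lam α) * 1 ≤ DD (wtOf pos lam α) *
      ((C.size : ℝ) ^ 2 * ((n + 1) * Real.exp (-(lam * (s / 64)))) * (2 * Real.exp s)) := by
    rw [mul_one, ← mul_assoc]
    exact hlow.trans (mul_le_mul_of_nonneg_right hup (by positivity))
  have h2 := le_of_mul_le_mul_left h1 hD
  rw [Real.rpow_def_of_pos hn0, ← hlam]
  exact final_ineq n s lam _ hss hs4 hl (by positivity) h2

end Crest.Agent.R327
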